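import Vale.Agent.P012.Fourier

/-!
# A family of sums of divisors with small collision probability
-/

namespace Vale.Agent.P012

open Finset

/-- `x` is a sum of at most `k` divisors of `D`. -/
def Rep (D k x : ℕ) : Prop :=
  ∃ m : Multiset ℕ, m.card ≤ k ∧ (∀ d ∈ m, d ∣ D) ∧ m.sum = x

lemma Rep.of_dvd {D x : ℕ} (h : x ∣ D) : Rep D 1 x := ⟨{x}, by simp, by simpa, by simp⟩

lemma Rep.zero (D : ℕ) : Rep D 0 0 := ⟨0, by simp, by simp, by simp⟩

lemma Rep.mono {D D' k k' x : ℕ} (h : Rep D k x) (hD : D ∣ D') (hk : k ≤ k') : Rep D' k' x := by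
  obtain ⟨m, h1, h2, h3⟩ := h
  exact ⟨m, h1.trans hk, fun d hd => (h2 d hd).trans hD, h3⟩

lemma Rep.add {D k k' x y : ℕ} (h : Rep D k x) (h' : Rep D k' y) : Rep D (k + k') (x + y) := by
  obtain ⟨m, h1, h2, h3⟩ := h
  obtain ⟨m', h1', h2', h3'⟩ := h'
  refine ⟨m + m', by simp; omega, ?_, by simp [h3, h3']⟩
  intro d hd
  rcases Multiset.mem_add.1 hd with hd | hd
  exacts [h2 d hd, h2' d hd]

lemma Rep.smul {D k x : ℕ} (c : ℕ) (h : Rep D k x) : Rep (c * D) k (c * x) := by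
  obtain ⟨m, h1, h2, h3⟩ := h
  refine ⟨m.map (c * ·), by simpa, ?_, by rw [Multiset.sum_map_mul_left, Multiset.map_id', h3]⟩
  intro d hd
  obtain ⟨e, he, rfl⟩ := Multiset.mem_map.1 hd
  exact Nat.mul_dvd_mul_left c (h2 e he)

lemma Rep.sum {σ : Type*} (s : Finset σ) {D k : ℕ} (x : σ → ℕ) (h : ∀ i ∈ s, Rep D k (x i)) :
    Rep D (s.card * k) (∑ i ∈ s, x i) := by
  classical
  induction s using Finset.induction with
  | empty => simpa using Rep.zero D
  | insert i s hi ih =>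
    rw [Finset.sum_insert hi, Finset.card_insert_of_notMem hi, add_mul, one_mul, add_comm (s.card * k)]
    exact (h i (Finset.mem_insert_self i s)).add
      (ih fun j hj => h j (Finset.mem_insert_of_mem hj))

section Step

variable {ι : Type} [Fintype ι]

open Classical in
lemma exists_good_multiplier (v : ι → ℕ) (G0 : ℕ) (hG0 : 0 < G0) :
    ∃ G, 1 ≤ G ∧ G ≤ G0 ∧
      coll (fun x : ι × ι => v x.1 + G * v x.2) 0 ≤ coll v 0 ^ 2 + 1 / (G0 : ℝ) := by
  set N := Fintype.card ι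
  let A : ι → ι → Prop := fun i j => v i = v j
  set c := ((univ : Finset (ι × ι)).filter (fun p => v p.1 = v p.2)).card with hc
  let cnt : ℕ → ℕ := fun G => ((univ : Finset ((ι × ι) × (ι × ι))).filter
    (fun p => v p.1.1 + G * v p.1.2 = v p.2.1 + G * v p.2.2)).card
  have htot : ∑ G ∈ Icc 1 G0, cnt G ≤ G0 * c ^ 2 + N ^ 4 := by
    simp only [cnt, Finset.card_filter]
    rw [Finset.sum_comm]
    have hpt : ∀ p : (ι × ι) × (ι × ι),
        (∑ G ∈ Icc 1 G0, if v p.1.1 + G * v p.1.2 = v p.2.1 + G * v p.2.2 then 1 else 0) ≤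
          G0 * ((if A p.1.1 p.2.1 then 1 else 0) * (if A p.1.2 p.2.2 then 1 else 0)) + 1 := by
      intro p
      rw [← Finset.card_filter]
      by_cases h2 : v p.1.2 = v p.2.2
      · by_cases h1 : v p.1.1 = v p.2.1
        · simp only [A, h1, h2, if_true, mul_one, Finset.filter_true, Nat.card_Icc]
          omega
        · rw [Finset.filter_false_of_mem]
          · simp
          · intro G _ hG
            rw [h2] at hG
            omega
      · refine le_trans ?_ (Nat.le_add_left 1 _)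
        rw [Finset.card_le_one]
        intro G1 hG1 G2 hG2
        have e1 := (Finset.mem_filter.1 hG1).2
        have e2 := (Finset.mem_filter.1 hG2).2
        zify at e1 e2 h2
        have h3 : ((G1 : ℤ) - G2) * ((v p.1.2 : ℤ) - v p.2.2) = 0 := by linarith
        rcases mul_eq_zero.1 h3 with h4 | h4
        · omega
        · exact absurd (sub_eq_zero.1 h4) h2
    refine (Finset.sum_le_sum fun p _ => hpt p).trans ?_
    rw [Finset.sum_add_distrib, ← Finset.mul_sum]
    have hone : ∑ _p : (ι × ι) × (ι × ι), (1 : ℕ) = N ^ 4 := by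
      simp [N]
      ring
    have hsq : ∑ p : (ι × ι) × (ι × ι),
        ((if A p.1.1 p.2.1 then 1 else 0) * (if A p.1.2 p.2.2 then 1 else 0) : ℕ) = c ^ 2 := by
      rw [hc, sq, Finset.card_filter, Finset.sum_mul_sum]
      simp only [Fintype.sum_prod_type, A]
      refine Finset.sum_congr rfl fun i _ => ?_
      rw [Finset.sum_comm]
    rw [hone, hsq]
  obtain ⟨G, hG, hmin⟩ := Finset.exists_min_image (Icc 1 G0) cnt ⟨1, by simp; omega⟩
  refine ⟨G, (Finset.mem_Icc.1 hG).1, (Finset.mem_Icc.1 hG).2, ?_⟩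
  have h1 : G0 * cnt G ≤ G0 * c ^ 2 + N ^ 4 := by
    refine le_trans ?_ htot
    calc G0 * cnt G = ∑ _x ∈ Icc 1 G0, cnt G := by simp
      _ ≤ _ := Finset.sum_le_sum hmin
  have e0 : coll v 0 = (c : ℝ) / (N : ℝ) ^ 2 := by simp [coll, hc, N]
  have e1 : coll (fun x : ι × ι => v x.1 + G * v x.2) 0 = (cnt G : ℝ) / (N : ℝ) ^ 4 := by
    simp only [coll, Nat.mod_zero, Fintype.card_prod, cnt, N]
    push_cast
    ring
  rw [e0, e1]
  rcases Nat.eq_zero_or_pos N with hN | hN
  · simp [hN]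
  have hGR : (0 : ℝ) < G0 := by exact_mod_cast hG0
  have hNR : (0 : ℝ) < N := by exact_mod_cast hN
  have h1R : (G0 : ℝ) * cnt G ≤ G0 * (c : ℝ) ^ 2 + (N : ℝ) ^ 4 := by exact_mod_cast h1
  have e2 : ((c : ℝ) / (N : ℝ) ^ 2) ^ 2 + 1 / (G0 : ℝ)
      = ((G0 : ℝ) * (c : ℝ) ^ 2 + (N : ℝ) ^ 4) / (G0 * (N : ℝ) ^ 4) := by
    field_simp
  rw [e2, le_div_iff₀ (by positivity)]
  calc (cnt G : ℝ) / (N : ℝ) ^ 4 * (G0 * (N : ℝ) ^ 4) = (G0 : ℝ) * cnt G := by field_simp
    _ ≤ _ := h1R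

end Step

/-- `e j = 2^j (n-1) + 1`. -/
def expo (n : ℕ) : ℕ → ℕ
  | 0 => n
  | j + 1 => 2 * expo n j - 1

lemma one_le_expo {n : ℕ} (hn : 1 ≤ n) : ∀ j, 1 ≤ expo n j
  | 0 => hn
  | j + 1 => by have := one_le_expo hn j; simp only [expo]; omega

lemma expo_eq {n : ℕ} (hn : 1 ≤ n) : ∀ j, expo n j = 2 ^ j * (n - 1) + 1
  | 0 => by simp [expo]; omega
  | j + 1 => by
    rw [expo, expo_eq hn j, pow_succ]
    have : 2 ^ j * 2 * (n - 1) = 2 * (2 ^ j * (n - 1)) := by ring
    omega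

/-- The main system. -/
theorem main_system {r n : ℕ} (hn : 1 ≤ n) (P : Finset ℕ) (hP : ∀ p ∈ P, p.Prime ∧ p ≤ 2 ^ r)
    (hcard : P.card = n) : ∀ J : ℕ,
    ∃ (ι : Type) (_ : Fintype ι) (_ : Nonempty ι) (v : ι → ℕ) (D : ℕ),
      0 < D ∧ D ≤ 2 ^ (r * n + 2 * expo n J + 3 * J) ∧
      (∀ i, v i ≤ 2 ^ (r * n + 2 * expo n J + 3 * J)) ∧
      (∀ i, Rep D (2 ^ J) (v i)) ∧
      coll v 0 ≤ 1 / (2 : ℝ) ^ expo n J := by
  intro J
  induction J with
  | zero =>
    classical
    refine ⟨{T // T ∈ P.powerset}, inferInstance, ⟨⟨∅, by simp⟩⟩, fun T => ∏ p ∈ T.1, p,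
      ∏ p ∈ P, p, Finset.prod_pos fun p hp => (hP p hp).1.pos, ?_, ?_, ?_, ?_⟩
    · calc ∏ p ∈ P, p ≤ ∏ _p ∈ P, 2 ^ r := Finset.prod_le_prod' fun p hp => (hP p hp).2
        _ = 2 ^ (r * n) := by simp [hcard, pow_mul]
        _ ≤ _ := Nat.pow_le_pow_right (by norm_num) (by omega)
    · intro T
      have hT := Finset.mem_powerset.1 T.2
      calc ∏ p ∈ T.1, p ≤ ∏ p ∈ P, p :=
            Nat.le_of_dvd (Finset.prod_pos fun p hp => (hP p hp).1.pos)
              (Finset.prod_dvd_prod_of_subset _ _ _ hT)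
        _ ≤ ∏ _p ∈ P, 2 ^ r := Finset.prod_le_prod' fun p hp => (hP p hp).2
        _ = 2 ^ (r * n) := by simp [hcard, pow_mul]
        _ ≤ _ := Nat.pow_le_pow_right (by norm_num) (by omega)
    · intro T
      exact Rep.of_dvd (Finset.prod_dvd_prod_of_subset _ _ _ (Finset.mem_powerset.1 T.2))
    · have hinj : ∀ S T : {T // T ∈ P.powerset}, (∏ p ∈ S.1, p) = ∏ p ∈ T.1, p → S = T := by
        intro S T h
        apply Subtype.ext
        have h1 := congrArg Nat.primeFactors h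
        rwa [Nat.primeFactors_prod fun p hp => (hP p (Finset.mem_powerset.1 S.2 hp)).1,
          Nat.primeFactors_prod fun p hp => (hP p (Finset.mem_powerset.1 T.2 hp)).1] at h1
      have hdiag : ((univ : Finset ({T // T ∈ P.powerset} × {T // T ∈ P.powerset})).filter
          (fun p => (∏ x ∈ p.1.1, x) % 0 = (∏ x ∈ p.2.1, x) % 0)).card
          = Fintype.card {T // T ∈ P.powerset} := by
        rw [← Finset.card_univ]
        refine Finset.card_bij' (fun p _ => p.1) (fun T _ => (T, T)) (by simp) (by simp) ?_ (by simp)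
        intro p hp
        simp only [Finset.mem_filter, Nat.mod_zero] at hp
        exact Prod.ext rfl (hinj _ _ hp.2)
      have hN : Fintype.card {T // T ∈ P.powerset} = 2 ^ n := by simp [hcard]
      unfold coll
      rw [hdiag, hN]
      simp only [expo]
      push_cast
      apply le_of_eq
      field_simp
  | succ J ih =>
    obtain ⟨ι, hF, hNE, v, D, hD0, hD, hv, hrep, hcoll⟩ := ih
    set e := expo n J with he
    have he1 : 1 ≤ e := one_le_expo hn J
    obtain ⟨G, hG1, hG0, hGc⟩ := exists_good_multiplier v (2 ^ (2 * e)) (by positivity)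
    have hexp : r * n + 2 * e + 3 * J + (2 * e + 1) ≤ r * n + 2 * expo n (J + 1) + 3 * (J + 1) := by
      simp only [expo, ← he]
      omega
    refine ⟨ι × ι, inferInstance, inferInstance, fun x => v x.1 + G * v x.2, G * D,
      Nat.mul_pos hG1 hD0, ?_, ?_, ?_, ?_⟩
    · refine le_trans ?_ (Nat.pow_le_pow_right (by norm_num) hexp)
      rw [pow_add 2 (r * n + 2 * e + 3 * J), mul_comm]
      exact Nat.mul_le_mul hD (hG0.trans (Nat.pow_le_pow_right (by norm_num) (by omega)))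
    · intro x
      refine le_trans ?_ (Nat.pow_le_pow_right (by norm_num) hexp)
      rw [pow_add, pow_succ 2 (2 * e)]
      set U := 2 ^ (r * n + 2 * e + 3 * J)
      have hp : 1 ≤ 2 ^ (2 * e) := Nat.one_le_two_pow
      calc v x.1 + G * v x.2 ≤ U + 2 ^ (2 * e) * U := Nat.add_le_add (hv _) (Nat.mul_le_mul hG0 (hv _))
        _ ≤ 2 ^ (2 * e) * U + 2 ^ (2 * e) * U := Nat.add_le_add_right (Nat.le_mul_of_pos_left U hp) _
        _ = _ := by ring
    · intro x
      rw [pow_succ, mul_two]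
      exact ((hrep x.1).mono (Dvd.intro_left G rfl) le_rfl).add ((hrep x.2).smul G)
    · refine hGc.trans ?_
      simp only [expo, ← he]
      push_cast
      calc coll v 0 ^ 2 + 1 / (2 : ℝ) ^ (2 * e)
          ≤ (1 / (2 : ℝ) ^ e) ^ 2 + 1 / (2 : ℝ) ^ (2 * e) := by
            gcongr
            exact coll_nonneg v 0
        _ = 1 / (2 : ℝ) ^ (2 * e - 1) := by
            obtain ⟨f, hf⟩ : ∃ f, 2 * e = f + 1 := ⟨2 * e - 1, by omega⟩
            rw [div_pow, one_pow, ← pow_mul, show e * 2 = 2 * e by ring, hf, pow_succ,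
              Nat.add_sub_cancel]
            field_simp
            ring

end Vale.Agent.P012
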