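import Mathlib

/-!
# From unit fractions with repetitions to distinct unit fractions

If `x < 1` is a sum of at most `k` unit fractions, it is a sum of at most `k` distinct ones.
-/

namespace Vale.Agent.P012

open Finset

/-- The sum of the reciprocals of the members of a multiset. -/
def rsum (m : Multiset ℕ) : ℚ := (m.map (fun n : ℕ => (1 : ℚ) / n)).sum

lemma rsum_cons (n : ℕ) (m : Multiset ℕ) : rsum (n ::ₘ m) = (1 : ℚ) / n + rsum m := by
  simp [rsum]

lemma rsum_add (m m' : Multiset ℕ) : rsum (m + m') = rsum m + rsum m' := by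
  simp [rsum]

lemma rsum_val (s : Finset ℕ) : rsum s.val = ∑ n ∈ s, (1 : ℚ) / n := rfl

lemma rsum_nonneg (m : Multiset ℕ) : 0 ≤ rsum m := by
  refine Multiset.sum_nonneg ?_
  intro q hq
  obtain ⟨n, -, rfl⟩ := Multiset.mem_map.1 hq
  positivity

lemma two_le_of_rsum_lt_one {m : Multiset ℕ} (h : rsum m < 1) {n : ℕ} (hn : n ∈ m)
    (h1 : 1 ≤ n) : 2 ≤ n := by
  by_contra hc
  obtain rfl : n = 1 := by omega
  obtain ⟨t, rfl⟩ := Multiset.exists_cons_of_mem hn
  rw [rsum_cons] at h
  have := rsum_nonneg t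
  norm_num at h
  linarith

lemma two_div_odd (n : ℕ) (hn : Odd n) :
    (1 : ℚ) / n + 1 / n = 1 / ((n + 1) / 2 : ℕ) + 1 / (n * ((n + 1) / 2) : ℕ) := by
  obtain ⟨j, rfl⟩ := hn
  have h : (2 * j + 1 + 1) / 2 = j + 1 := by omega
  rw [h]
  push_cast
  have h1 : (2 * (j : ℚ) + 1) ≠ 0 := by positivity
  have h2 : ((j : ℚ) + 1) ≠ 0 := by positivity
  field_simp
  ring

lemma exists_distinct_aux : ∀ (k : ℕ) (m : Multiset ℕ), m.card ≤ k → (∀ n ∈ m, 1 ≤ n) →
    rsum m < 1 → ∃ s : Finset ℕ, s.card ≤ k ∧ (∀ n ∈ s, 1 ≤ n) ∧ rsum s.val = rsum m := by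
  intro k
  induction k with
  | zero =>
    intro m hm _ _
    have : m = 0 := Multiset.card_eq_zero.1 (by omega)
    exact ⟨∅, by simp, by simp, by simp [this]⟩
  | succ k ih =>
    intro m hm hpos hlt
    by_cases hne : m = 0
    · exact ⟨∅, by simp, by simp, by simp [hne]⟩
    classical
    -- a representation with the least possible denominator
    have hex : ∃ n, ∃ t : Multiset ℕ, t.card ≤ k ∧ (∀ i ∈ n ::ₘ t, 1 ≤ i) ∧
        rsum (n ::ₘ t) = rsum m := by
      obtain ⟨n, hn⟩ := Multiset.exists_mem_of_ne_zero hne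
      obtain ⟨t, rfl⟩ := Multiset.exists_cons_of_mem hn
      exact ⟨n, t, by simpa using hm, hpos, rfl⟩
    obtain ⟨t, htc, htp, hts⟩ := Nat.find_spec hex
    set n := Nat.find hex with hndef
    have hn1 : 1 ≤ n := htp n (Multiset.mem_cons_self _ _)
    have hn2 : 2 ≤ n := two_le_of_rsum_lt_one (hts ▸ hlt) (Multiset.mem_cons_self _ _) hn1
    have htlt : rsum t < 1 := by
      have h := rsum_cons n t
      rw [hts] at h
      have : (0 : ℚ) ≤ 1 / n := by positivity
      linarith
    obtain ⟨F, hFc, hFp, hFs⟩ := ih t htc (fun i hi => htp i (Multiset.mem_cons_of_mem hi)) htlt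
    by_cases hmem : n ∈ F
    · exfalso
      have hFe : F.val = n ::ₘ (F.erase n).val := by
        rw [Finset.erase_val, Multiset.cons_erase hmem]
      have hFs' : (1 : ℚ) / n + rsum (F.erase n).val = rsum t := by
        rw [← rsum_cons, ← hFe, hFs]
      have hcard : (F.erase n).val.card + 1 = F.card := by
        exact Finset.card_erase_add_one hmem
      have hpos' : ∀ i ∈ (F.erase n).val, 1 ≤ i := fun i hi => hFp i (Finset.mem_of_mem_erase hi)
      have hsum : rsum m = (1 : ℚ) / n + 1 / n + rsum (F.erase n).val := by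
        rw [← hts, rsum_cons, ← hFs']
        ring
      rcases Nat.even_or_odd n with ⟨j, hj⟩ | hodd
      · have hj1 : 1 ≤ j := by omega
        refine Nat.find_min hex (show j < n by omega) ⟨(F.erase n).val, by omega, ?_, ?_⟩
        · intro i hi
          rcases Multiset.mem_cons.1 hi with rfl | hi
          exacts [hj1, hpos' i hi]
        · rw [rsum_cons, hsum, hj]
          push_cast
          have : (j : ℚ) ≠ 0 := by positivity
          field_simp
      · refine Nat.find_min hex (show (n + 1) / 2 < n by omega)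
          ⟨(n * ((n + 1) / 2)) ::ₘ (F.erase n).val, ?_, ?_, ?_⟩
        · simp only [Multiset.card_cons]
          omega
        · intro i hi
          rcases Multiset.mem_cons.1 hi with rfl | hi
          · omega
          · rcases Multiset.mem_cons.1 hi with rfl | hi
            · exact Nat.one_le_iff_ne_zero.2 (Nat.mul_ne_zero (by omega) (by omega))
            · exact hpos' i hi
        · rw [rsum_cons, rsum_cons, hsum, two_div_odd n hodd]
          ring
    · refine ⟨insert n F, ?_, ?_, ?_⟩
      · rw [Finset.card_insert_of_notMem hmem]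
        omega
      · intro i hi
        rcases Finset.mem_insert.1 hi with rfl | hi
        exacts [hn1, hFp i hi]
      · rw [Finset.insert_val_of_notMem hmem, rsum_cons, hFs, ← rsum_cons, hts]

/-- Repetitions can be removed without increasing the number of terms. -/
theorem exists_distinct {k : ℕ} (m : Multiset ℕ) (hk : m.card ≤ k) (hpos : ∀ n ∈ m, 1 ≤ n)
    (hlt : rsum m < 1) :
    ∃ s : Finset ℕ, s.card ≤ k ∧ (∀ n ∈ s, 2 ≤ n) ∧ (∑ n ∈ s, (1 : ℚ) / n) = rsum m := by
  obtain ⟨s, hsc, hsp, hss⟩ := exists_distinct_aux k m hk hpos hlt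
  exact ⟨s, hsc, fun n hn => two_le_of_rsum_lt_one (hss ▸ hlt) hn (hsp n hn),
    by rw [← rsum_val, hss]⟩

end Vale.Agent.P012
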