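import Vale.Agent.P012.Collision

/-!
# Divisor bounds and the mass of exceptional moduli
-/

namespace Vale.Agent.P012

open Finset

lemma card_divisors_le {n L l : ℕ} (hn : n ≠ 0) (hnL : n ≤ 2 ^ L) (hl : 1 ≤ l) :
    n.divisors.card ≤ (L + 1) ^ (2 ^ l) * 2 ^ (L / l) := by
  classical
  rw [Nat.card_divisors hn, ← Finset.prod_filter_mul_prod_filter_not n.primeFactors (· < 2 ^ l)]
  have hself : ∏ p ∈ n.primeFactors, p ^ n.factorization p = n :=
    Nat.prod_factorization_pow_eq_self hn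
  refine Nat.mul_le_mul ?_ ?_
  · refine (Finset.prod_le_prod' (g := fun _ => L + 1) fun p hp => ?_).trans ?_
    · rw [Finset.mem_filter] at hp
      have hpp := Nat.prime_of_mem_primeFactors hp.1
      have h1 : p ^ n.factorization p ≤ n := Nat.le_of_dvd (Nat.pos_of_ne_zero hn)
        (Nat.ordProj_dvd n p)
      have h2 : 2 ^ n.factorization p ≤ 2 ^ L :=
        (Nat.pow_le_pow_left hpp.two_le _).trans (h1.trans hnL)
      have := (Nat.pow_le_pow_iff_right (by norm_num)).1 h2
      omega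
    · rw [Finset.prod_const]
      refine Nat.pow_le_pow_right (by omega) ?_
      refine (Finset.card_le_card (t := range (2 ^ l)) fun p hp => ?_).trans (by simp)
      exact Finset.mem_range.2 (Finset.mem_filter.1 hp).2
  · set F := n.primeFactors.filter (fun p => ¬ p < 2 ^ l)
    have h1 : ∏ p ∈ F, (n.factorization p + 1) ≤ 2 ^ (∑ p ∈ F, n.factorization p) := by
      rw [← Finset.prod_pow_eq_pow_sum]
      exact Finset.prod_le_prod' fun p _ => Nat.lt_two_pow_self
    have h2 : 2 ^ (l * ∑ p ∈ F, n.factorization p) ≤ n := by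
      rw [pow_mul, ← Finset.prod_pow_eq_pow_sum]
      calc ∏ p ∈ F, (2 ^ l) ^ n.factorization p ≤ ∏ p ∈ F, p ^ n.factorization p :=
            Finset.prod_le_prod' fun p hp => Nat.pow_le_pow_left
              (not_lt.1 (Finset.mem_filter.1 hp).2) _
        _ ≤ ∏ p ∈ n.primeFactors, p ^ n.factorization p :=
            Finset.prod_le_prod_of_subset_of_one_le' (Finset.filter_subset _ _)
              fun p hp _ => Nat.one_le_pow _ _ (Nat.prime_of_mem_primeFactors hp).pos
        _ = n := hself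
    refine h1.trans (Nat.pow_le_pow_right (by norm_num) ?_)
    rw [Nat.le_div_iff_mul_le hl, mul_comm]
    exact (Nat.pow_le_pow_iff_right (by norm_num)).1 (h2.trans hnL)

/-- The weight `d ^ (-1/4)`. -/
noncomputable def qw (d : ℕ) : ℝ := (d : ℝ) ^ (-(1 / 4) : ℝ)

lemma qw_nonneg (d : ℕ) : 0 ≤ qw d := Real.rpow_nonneg (Nat.cast_nonneg d) _

lemma qw_mul (a b : ℕ) : qw (a * b) = qw a * qw b := by
  simp only [qw, Nat.cast_mul]
  exact Real.mul_rpow (Nat.cast_nonneg a) (Nat.cast_nonneg b)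

lemma qw_pow (p i : ℕ) : qw (p ^ i) = qw p ^ i := by
  induction i with
  | zero => simp [qw]
  | succ i ih => rw [pow_succ, qw_mul, ih, pow_succ]

lemma qw_anti {a b : ℕ} (ha : 1 ≤ a) (h : a ≤ b) : qw b ≤ qw a :=
  Real.rpow_le_rpow_of_nonpos (by exact_mod_cast ha) (by exact_mod_cast h) (by norm_num)

lemma qw_two_le : qw 2 ≤ 7 / 8 := by
  have h : qw 2 ^ 4 = 1 / 2 := by
    rw [qw, ← Real.rpow_natCast, ← Real.rpow_mul (by norm_num)]
    norm_num [Real.rpow_neg_one]
  by_contra hc
  push Not at hc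
  have := pow_lt_pow_left₀ hc (by norm_num) (four_ne_zero : (4 : ℕ) ≠ 0)
  rw [h] at this
  norm_num at this

lemma qw_prime_lt_one {p : ℕ} (hp : p.Prime) : qw p < 1 :=
  lt_of_le_of_lt ((qw_anti one_le_two hp.two_le).trans qw_two_le) (by norm_num)

lemma sum_qw_le_prod (n : ℕ) :
    n ≠ 0 → ∑ d ∈ n.divisors, qw d ≤ ∏ p ∈ n.primeFactors, (1 - qw p)⁻¹ := by
  induction n using Nat.recOnPrimeCoprime with
  | zero => intro h; exact absurd rfl h
  | prime_pow p k hp =>
    intro _
    rcases Nat.eq_zero_or_pos k with rfl | hk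
    · simp [qw]
    rw [Nat.sum_divisors_prime_pow (f := qw) hp, Nat.primeFactors_prime_pow hk.ne' hp,
      Finset.prod_singleton]
    simp only [qw_pow]
    have h1 := qw_prime_lt_one hp
    rw [geom_sum_eq h1.ne, ← neg_div_neg_eq, neg_sub, neg_sub, inv_eq_one_div]
    apply div_le_div_of_nonneg_right _ (by linarith)
    have := pow_nonneg (qw_nonneg p) (k + 1)
    linarith
  | coprime a b ha hb hab iha ihb =>
    intro _
    classical
    rw [Nat.divisors_mul, hab.primeFactors_mul, Finset.prod_union hab.disjoint_primeFactors]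
    refine le_trans ?_ (mul_le_mul (iha (by omega)) (ihb (by omega))
      (Finset.sum_nonneg fun d _ => qw_nonneg d) ?_)
    · rw [Finset.sum_mul_sum, ← Finset.sum_product']
      rw [Finset.mul_def]
      refine (Finset.sum_image_le_of_nonneg fun u _ => qw_nonneg u).trans ?_
      simp [qw_mul]
    · refine Finset.prod_nonneg fun p hp => inv_nonneg.2 ?_
      have := qw_prime_lt_one (Nat.prime_of_mem_primeFactors hp)
      linarith

lemma sum_qw_le {n L lam : ℕ} (hn : n ≠ 0) (hnL : n ≤ 2 ^ L) (hlam : 1 ≤ lam) :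
    ∑ d ∈ n.divisors, qw d ≤ 8 ^ (2 ^ (4 * lam)) * Real.exp (2 * L / 2 ^ lam) := by
  classical
  refine (sum_qw_le_prod n hn).trans ?_
  rw [← Finset.prod_filter_mul_prod_filter_not n.primeFactors (· < 2 ^ (4 * lam))]
  have hpos : ∀ p ∈ n.primeFactors, 0 ≤ (1 - qw p)⁻¹ := fun p hp => inv_nonneg.2
    (by have := qw_prime_lt_one (Nat.prime_of_mem_primeFactors hp); linarith)
  refine mul_le_mul ?_ ?_ (Finset.prod_nonneg fun p hp => hpos p (Finset.mem_filter.1 hp).1)
    (by positivity)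
  · refine (Finset.prod_le_prod (g := fun _ => (8 : ℝ)) (fun p hp => hpos p (Finset.mem_filter.1 hp).1)
      fun p hp => ?_).trans ?_
    · have hpp := Nat.prime_of_mem_primeFactors (Finset.mem_filter.1 hp).1
      have h := (qw_anti one_le_two hpp.two_le).trans qw_two_le
      rw [inv_le_comm₀ (by linarith) (by norm_num)]
      linarith
    · rw [Finset.prod_const]
      refine pow_le_pow_right₀ (by norm_num) ?_
      refine (Finset.card_le_card (t := range (2 ^ (4 * lam))) fun p hp => ?_).trans (by simp)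
      exact Finset.mem_range.2 (Finset.mem_filter.1 hp).2
  · set F := n.primeFactors.filter (fun p => ¬ p < 2 ^ (4 * lam))
    set δ : ℝ := 1 / 2 ^ lam
    have hδ : δ ≤ 1 / 2 := by
      apply one_div_le_one_div_of_le two_pos
      calc (2 : ℝ) = 2 ^ 1 := by norm_num
        _ ≤ _ := pow_le_pow_right₀ (by norm_num) hlam
    have hb : ∀ p ∈ F, (1 - qw p)⁻¹ ≤ Real.exp (2 * δ) := by
      intro p hp
      have h1 : qw p ≤ δ := by
        refine (qw_anti Nat.one_le_two_pow (not_lt.1 (Finset.mem_filter.1 hp).2)).trans ?_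
        rw [qw]
        push_cast
        rw [← Real.rpow_natCast, ← Real.rpow_mul (by norm_num),
          show ((4 * lam : ℕ) : ℝ) * (-(1 / 4)) = -(lam : ℝ) by push_cast; ring,
          Real.rpow_neg (by norm_num), Real.rpow_natCast]
        simp [δ]
      refine le_trans ?_ (Real.add_one_le_exp _)
      rw [inv_le_iff_one_le_mul₀ (by linarith)]
      nlinarith [qw_nonneg p]
    refine (Finset.prod_le_prod (fun p hp => hpos p (Finset.mem_filter.1 hp).1) hb).trans ?_
    rw [Finset.prod_const, ← Real.exp_nat_mul]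
    apply Real.exp_le_exp.2
    have hcard : F.card ≤ L := by
      refine (Finset.card_filter_le _ _).trans ?_
      have h2 : 2 ^ n.primeFactors.card ≤ n :=
        calc 2 ^ n.primeFactors.card ≤ ∏ p ∈ n.primeFactors, p :=
              Finset.pow_card_le_prod _ _ _ fun p hp => (Nat.prime_of_mem_primeFactors hp).two_le
          _ ≤ n := Nat.le_of_dvd (Nat.pos_of_ne_zero hn) (Nat.prod_primeFactors_dvd n)
      exact (Nat.pow_le_pow_iff_right (by norm_num)).1 (h2.trans hnL)
    have hc : (F.card : ℝ) ≤ L := by exact_mod_cast hcard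
    calc (F.card : ℝ) * (2 * δ) ≤ L * (2 * δ) := by
          gcongr
      _ = _ := by simp [δ]; ring

variable {ι : Type} [Fintype ι]

/-- The exceptional moduli have little weight. -/
lemma sum_bad_le (v : ι → ℕ) (T : Finset ℕ) (tau : ℝ) (α θ : ℝ) (hαθ : α ≤ θ) {Q0 : ℕ}
    (hQ0 : 1 ≤ Q0) (hT : ∀ q ∈ T, Q0 ≤ q)
    (htau : ∀ i j, v i ≠ v j → ((Nat.dist (v i) (v j)).divisors.card : ℝ) ≤ tau)
    (htau0 : 0 ≤ tau)
    (hsmall : ∀ q ∈ T, 2 * coll v 0 ≤ (q : ℝ) ^ (-α))
    (hbad : ∀ q ∈ T, (q : ℝ) ^ (-α) < coll v q) :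
    ∑ q ∈ T, (q : ℝ) ^ (-θ) ≤ 2 * tau * (Q0 : ℝ) ^ (-(θ - α)) := by
  classical
  set N := Fintype.card ι
  let cnt : ℕ → ℕ := fun q => ((univ : Finset (ι × ι)).filter
    (fun p => v p.1 ≠ v p.2 ∧ v p.1 % q = v p.2 % q)).card
  have hsplit : ∀ q, coll v q ≤ coll v 0 + (cnt q : ℝ) / (N : ℝ) ^ 2 := by
    intro q
    unfold coll
    rw [← add_div]
    gcongr
    rw [← Nat.cast_add, Nat.cast_le]
    refine le_trans (Finset.card_le_card ?_) (Finset.card_union_le _ _)
    intro p hp
    simp only [Finset.mem_filter, Finset.mem_union, Finset.mem_univ, true_and, Nat.mod_zero] at hp ⊢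
    by_cases h : v p.1 = v p.2
    · exact Or.inl h
    · exact Or.inr ⟨h, hp⟩
  have htot : (∑ q ∈ T, (cnt q : ℝ)) ≤ (N : ℝ) ^ 2 * tau := by
    simp only [cnt, Finset.card_filter, Nat.cast_sum]
    rw [Finset.sum_comm]
    refine (Finset.sum_le_sum (g := fun _ => tau) fun p _ => ?_).trans ?_
    · by_cases h : v p.1 = v p.2
      · simp [h, htau0]
      · refine le_trans ?_ (htau _ _ h)
        rw [← Nat.cast_sum, Nat.cast_le, ← Finset.card_filter]
        refine Finset.card_le_card fun q hq => ?_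
        obtain ⟨hqT, -, hmod⟩ := Finset.mem_filter.1 hq
        have hd0 : Nat.dist (v p.1) (v p.2) ≠ 0 := fun hd => h (Nat.eq_of_dist_eq_zero hd)
        rw [Nat.mem_divisors]
        refine ⟨?_, hd0⟩
        rcases le_total (v p.1) (v p.2) with hle | hle
        · rw [Nat.dist_eq_sub_of_le hle]
          exact (Nat.modEq_iff_dvd' hle).1 hmod
        · rw [Nat.dist_eq_sub_of_le_right hle]
          exact (Nat.modEq_iff_dvd' hle).1 hmod.symm
    · simp [N, sq]
  have hterm : ∀ q ∈ T, (q : ℝ) ^ (-θ) ≤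
      2 * ((cnt q : ℝ) / (N : ℝ) ^ 2) * (Q0 : ℝ) ^ (-(θ - α)) := by
    intro q hq
    have hQR : (1 : ℝ) ≤ Q0 := by exact_mod_cast hQ0
    have hqQ : (Q0 : ℝ) ≤ q := by exact_mod_cast hT q hq
    have h1 : (q : ℝ) ^ (-α) ≤ 2 * ((cnt q : ℝ) / (N : ℝ) ^ 2) := by
      have := hsplit q
      have := hbad q hq
      have := hsmall q hq
      linarith
    have h2 : (q : ℝ) ^ (-θ) = (q : ℝ) ^ (-α) * (q : ℝ) ^ (-(θ - α)) := by
      rw [← Real.rpow_add (by linarith)]
      ring_nf
    rw [h2]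
    apply mul_le_mul h1 (Real.rpow_le_rpow_of_nonpos (by linarith) hqQ (by linarith))
      (Real.rpow_nonneg (by linarith) _) (by positivity)
  refine (Finset.sum_le_sum hterm).trans ?_
  rw [← Finset.sum_mul, ← Finset.mul_sum, ← Finset.sum_div]
  apply mul_le_mul_of_nonneg_right _ (Real.rpow_nonneg (Nat.cast_nonneg _) _)
  apply mul_le_mul_of_nonneg_left _ two_pos.le
  rcases Nat.eq_zero_or_pos N with hN | hN
  · simp [hN, htau0]
  rw [div_le_iff₀ (by positivity), mul_comm tau]
  exact htot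

end Vale.Agent.P012
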