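import Vale.Agent.P012.Distinct
import Vale.Agent.P012.Divisors

/-!
# Greedy expansion with denominators avoiding a small exceptional set
-/

namespace Vale.Agent.P012

open Finset

/-- `a / b` lies in `[2^(-T-1), 2^(-T))`. -/
def InWin (a b T : ℕ) : Prop := 2 ^ T * a < b ∧ b ≤ 2 ^ (T + 1) * a

lemma InWin.pos_left {a b T : ℕ} (h : InWin a b T) : 0 < a := by
  rcases Nat.eq_zero_or_pos a with rfl | h0
  · obtain ⟨h1, h2⟩ := h; simp at h1 h2; omega
  · exact h0

lemma InWin.pos_right {a b T : ℕ} (h : InWin a b T) : 0 < b := lt_of_le_of_lt (Nat.zero_le _) h.1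

lemma sub_unit {a b n : ℕ} (hb : 0 < b) (hn : 0 < n) (h : b ≤ a * n) :
    ((a * n - b : ℕ) : ℚ) / ((b * n : ℕ) : ℚ) + 1 / (n : ℚ) = (a : ℚ) / b := by
  rw [Nat.cast_sub h]
  have h1 : (b : ℚ) ≠ 0 := by positivity
  have h2 : (n : ℚ) ≠ 0 := by positivity
  push_cast
  field_simp
  ring

/-- An interval of possible next denominators. -/
lemma step_interval {a b T g : ℕ} (hw : InWin a b T) (hg : 1 ≤ g) (hT : g + 5 ≤ T) :
    ∃ n0, 1 ≤ n0 ∧ n0 + 2 ^ (T - g - 2) ≤ 2 ^ (T + 3) ∧ ∀ n, n0 ≤ n → n ≤ n0 + 2 ^ (T - g - 2) →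
      b < a * n ∧ InWin (a * n - b) (b * n) (T + g) := by
  have ha := hw.pos_left
  have hb := hw.pos_right
  set Q := 2 ^ (T + g) with hQ
  set L := 2 ^ (T - g - 2) with hL
  have hQT : 2 ^ (T + 1) ≤ Q := Nat.pow_le_pow_right Nat.two_pos (by omega)
  have hQa : b ≤ Q * a := hw.2.trans (Nat.mul_le_mul_right a hQT)
  obtain ⟨D, hD⟩ : ∃ D, Q * a = b + D := ⟨Q * a - b, by omega⟩
  -- the lower end
  set n0 := 2 * Q * b / (b + 2 * D) + 1 with hn0
  have hlow : 2 * Q * b < n0 * (b + 2 * D) := by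
    rw [hn0, mul_comm (_ + 1)]
    exact Nat.lt_mul_div_succ _ (by omega)
  have hup : n0 * (b + 2 * D) ≤ 2 * Q * b + (b + 2 * D) := by
    rw [hn0, Nat.add_mul, one_mul]
    exact Nat.add_le_add_right (Nat.div_mul_le_self _ _) _
  have hn0le : n0 ≤ 2 * 2 ^ (T + 1) + 1 := by
    rw [hn0]
    refine Nat.add_le_add_right (Nat.div_le_of_le_mul ?_) 1
    calc 2 * Q * b ≤ 2 * Q * (2 ^ (T + 1) * a) := Nat.mul_le_mul_left _ hw.2
      _ = 2 * 2 ^ (T + 1) * (b + D) := by rw [← hD]; ring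
      _ ≤ 2 * 2 ^ (T + 1) * (b + 2 * D) := Nat.mul_le_mul_left _ (by omega)
      _ = _ := Nat.mul_comm _ _
  refine ⟨n0, Nat.succ_pos _, ?_, ?_⟩
  · have h1 : L ≤ 2 ^ T := Nat.pow_le_pow_right Nat.two_pos (by omega)
    have h2 : 2 ^ (T + 1) = 2 * 2 ^ T := by rw [pow_succ]; ring
    have h3 : 2 ^ (T + 3) = 8 * 2 ^ T := by rw [pow_add]; ring
    have := Nat.one_le_two_pow (n := T)
    omega
  · intro n hn hn'
    have h1 : 2 * Q * b < n * (b + 2 * D) :=
      lt_of_lt_of_le hlow (Nat.mul_le_mul_right _ hn)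
    have hgt : b < a * n := by
      have : 2 * Q * b < 2 * Q * (a * n) := by
        calc 2 * Q * b < n * (b + 2 * D) := h1
          _ ≤ n * (2 * (b + D)) := Nat.mul_le_mul_left _ (by omega)
          _ = _ := by rw [← hD]; ring
      exact Nat.lt_of_mul_lt_mul_left this
    refine ⟨hgt, ?_, ?_⟩
    · -- upper end
      obtain ⟨v, hv⟩ : ∃ v, a * n = b + v := ⟨a * n - b, by omega⟩
      rw [hv, Nat.add_sub_cancel_left]
      -- `n * D < Q * b`
      have key : n * D < Q * b := by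
        rcases Nat.eq_zero_or_pos D with hD0 | hD0
        · rw [hD0, mul_zero]; positivity
        have hnb : n * (b + 2 * D) ≤ 2 * Q * b + (1 + L) * (b + 2 * D) := by
          calc n * (b + 2 * D) ≤ (n0 + L) * (b + 2 * D) := Nat.mul_le_mul_right _ hn'
            _ ≤ _ := by nlinarith
        have hmain : (1 + L) * (b + 2 * D) * D < Q * b * b := by
          have hL2 : (1 + L) * (2 * Q) ≤ 4 ^ T := by
            calc (1 + L) * (2 * Q) ≤ (2 * L) * (2 * Q) :=
                  Nat.mul_le_mul_right _ (by have := Nat.one_le_two_pow (n := T - g - 2); omega)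
              _ = 2 ^ (1 + (T - g - 2) + (1 + (T + g))) := by rw [hL, hQ, pow_add, pow_add, pow_add]; ring
              _ = 4 ^ T := by
                  rw [show (4 : ℕ) = 2 ^ 2 from rfl, ← pow_mul]
                  congr 1
                  omega
          have hb2 : 4 ^ T * (a * a) < b * b := by
            have := Nat.mul_self_lt_mul_self hw.1
            calc 4 ^ T * (a * a) = 2 ^ T * a * (2 ^ T * a) := by
                  rw [show (4 : ℕ) = 2 * 2 from rfl, mul_pow]; ring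
              _ < _ := this
          calc (1 + L) * (b + 2 * D) * D ≤ (1 + L) * (2 * (Q * a)) * (Q * a) := by
                gcongr <;> omega
            _ = Q * ((1 + L) * (2 * Q) * (a * a)) := by ring
            _ ≤ Q * (4 ^ T * (a * a)) := Nat.mul_le_mul_left _ (Nat.mul_le_mul_right _ hL2)
            _ < Q * (b * b) := Nat.mul_lt_mul_of_pos_left hb2 (by positivity)
            _ = _ := by ring
        by_contra hc
        push Not at hc
        nlinarith
      nlinarith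
    · obtain ⟨v, hv⟩ : ∃ v, a * n = b + v := ⟨a * n - b, by omega⟩
      rw [hv, Nat.add_sub_cancel_left]
      have : 2 ^ (T + g + 1) = 2 * Q := by rw [hQ, pow_succ]; ring
      rw [this]
      nlinarith

lemma card_multiples_le (n0 L d : ℕ) :
    ((Icc n0 (n0 + L)).filter (d ∣ ·)).card ≤ L / d + 2 := by
  rcases Nat.eq_zero_or_pos d with rfl | hd
  · refine le_trans ?_ (Nat.le_add_left 2 _)
    refine le_trans (Finset.card_le_card (t := {0}) ?_) (by simp)
    intro x hx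
    obtain ⟨-, hx⟩ := Finset.mem_filter.1 hx
    simpa using hx
  · refine (Finset.card_le_card_of_injOn (t := Icc (n0 / d) ((n0 + L) / d)) (fun n => n / d) ?_ ?_).trans ?_
    · intro n hn
      obtain ⟨hn, -⟩ := Finset.mem_filter.1 hn
      rw [Finset.mem_Icc] at hn
      simp only [Finset.coe_Icc, Set.mem_Icc]
      exact ⟨Nat.div_le_div_right hn.1, Nat.div_le_div_right hn.2⟩
    · intro x hx y hy hxy
      have hxy : x / d = y / d := hxy
      rw [← Nat.div_mul_cancel (Finset.mem_filter.1 hx).2, hxy,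
        Nat.div_mul_cancel (Finset.mem_filter.1 hy).2]
    · rw [Nat.card_Icc]
      have h1 : (n0 + L) / d ≤ n0 / d + L / d + 1 := by
        rw [Nat.add_div hd]; split_ifs <;> omega
      generalize (n0 + L) / d = u at h1 ⊢
      generalize L / d = w at h1 ⊢
      generalize n0 / d = v at h1 ⊢
      omega

/-- Avoiding every exceptional modulus inside an interval. -/
lemma exists_avoid (Bad : Finset ℕ) (n0 L U : ℕ) (hn0 : 1 ≤ n0) (hU : n0 + L ≤ 2 ^ U)
    (hUL : (2 : ℝ) ^ ((U : ℝ) / 16) ≤ (L : ℝ) + 1) (hpos : ∀ q ∈ Bad, 1 ≤ q)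
    (hβ : 3 * (∑ q ∈ Bad, (q : ℝ) ^ (-(1 / 16) : ℝ)) < 1) :
    ∃ n, n0 ≤ n ∧ n ≤ n0 + L ∧ ∀ q ∈ Bad, ¬ q ∣ n := by
  classical
  by_contra hno
  push Not at hno
  have h1 : (Icc n0 (n0 + L)).card ≤ ∑ q ∈ Bad, ((Icc n0 (n0 + L)).filter (q ∣ ·)).card := by
    refine le_trans (Finset.card_le_card fun n hn => ?_) Finset.card_biUnion_le
    obtain ⟨q, hq, hqn⟩ := hno n (Finset.mem_Icc.1 hn).1 (Finset.mem_Icc.1 hn).2
    exact Finset.mem_biUnion.2 ⟨q, hq, Finset.mem_filter.2 ⟨hn, hqn⟩⟩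
  have h2 : ∀ q ∈ Bad, (((Icc n0 (n0 + L)).filter (q ∣ ·)).card : ℝ) ≤
      ((L : ℝ) + 1) * (3 * (q : ℝ) ^ (-(1 / 16) : ℝ)) := by
    intro q hq
    rcases ((Icc n0 (n0 + L)).filter (q ∣ ·)).eq_empty_or_nonempty with he | ⟨n, hn⟩
    · rw [he]; simp; positivity
    obtain ⟨hnI, hqn⟩ := Finset.mem_filter.1 hn
    rw [Finset.mem_Icc] at hnI
    have hqU : q ≤ 2 ^ U := (Nat.le_of_dvd (by omega) hqn).trans (hnI.2.trans hU)
    have hqR : (1 : ℝ) ≤ q := by exact_mod_cast hpos q hq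
    set w := (q : ℝ) ^ (-(1 / 16) : ℝ) with hw
    have hw1 : (q : ℝ)⁻¹ ≤ w := by
      rw [hw, ← Real.rpow_neg_one]
      exact Real.rpow_le_rpow_of_exponent_le hqR (by norm_num)
    have hw2 : 1 ≤ ((L : ℝ) + 1) * w := by
      rw [hw, Real.rpow_neg (by linarith), ← div_eq_mul_inv, one_le_div (by positivity)]
      refine le_trans ?_ hUL
      calc (q : ℝ) ^ ((1 : ℝ) / 16) ≤ ((2 : ℝ) ^ U) ^ ((1 : ℝ) / 16) :=
            Real.rpow_le_rpow (by linarith) (by exact_mod_cast hqU) (by norm_num)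
        _ = _ := by
            rw [← Real.rpow_natCast, ← Real.rpow_mul (by norm_num)]
            congr 1
            ring
    have h3 : (((L / q : ℕ) : ℕ) : ℝ) ≤ (L : ℝ) * w := by
      refine Nat.cast_div_le.trans ?_
      rw [div_eq_mul_inv]
      exact mul_le_mul_of_nonneg_left hw1 (Nat.cast_nonneg L)
    have h4 : (((Icc n0 (n0 + L)).filter (q ∣ ·)).card : ℝ) ≤ ((L / q : ℕ) : ℝ) + 2 := by
      exact_mod_cast card_multiples_le n0 L q
    have h5 : 0 ≤ w := le_trans (by positivity) hw1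
    nlinarith
  have h1' : ((L : ℝ) + 1) ≤ ∑ q ∈ Bad, (((Icc n0 (n0 + L)).filter (q ∣ ·)).card : ℝ) := by
    rw [Nat.card_Icc] at h1
    have : L + 1 ≤ ∑ q ∈ Bad, ((Icc n0 (n0 + L)).filter (q ∣ ·)).card := by omega
    exact_mod_cast this
  have h6 := h1'.trans (Finset.sum_le_sum h2)
  rw [← Finset.mul_sum, ← Finset.mul_sum] at h6
  have hL0 : (0 : ℝ) < (L : ℝ) + 1 := by positivity
  nlinarith

/-- The potential of a denominator. -/
noncomputable def Pot (Bad : Finset ℕ) (N : ℕ) : ℝ :=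
  ∑ q ∈ Bad, ((Nat.gcd q N : ℝ) / q) ^ ((1 : ℝ) / 16)

lemma not_dvd_of_Pot_lt_one {Bad : Finset ℕ} {N q : ℕ} (h : Pot Bad N < 1) (hq : q ∈ Bad)
    (hq0 : 1 ≤ q) : ¬ q ∣ N := by
  intro hd
  have : (1 : ℝ) ≤ Pot Bad N := by
    refine le_trans ?_ (Finset.single_le_sum (fun x _ => by positivity) hq)
    rw [Nat.gcd_eq_left hd, div_self (by positivity), Real.one_rpow]
  linarith

lemma Pot_le {Bad : Finset ℕ} {N : ℕ} (hN : 1 ≤ N) (U : ℕ) (hU : N ≤ 2 ^ (16 * U)) :
    Pot Bad N ≤ (2 : ℝ) ^ U * ∑ q ∈ Bad, (q : ℝ) ^ (-(1 / 16) : ℝ) := by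
  rw [Finset.mul_sum]
  refine Finset.sum_le_sum fun q _ => ?_
  rw [Real.div_rpow (Nat.cast_nonneg _) (Nat.cast_nonneg _), Real.rpow_neg (Nat.cast_nonneg _),
    div_eq_mul_inv]
  refine mul_le_mul_of_nonneg_right ?_ (by positivity)
  have h1 : (Nat.gcd q N : ℝ) ≤ (2 : ℝ) ^ (16 * U) := by
    exact_mod_cast (Nat.le_of_dvd hN (Nat.gcd_dvd_right q N)).trans hU
  refine (Real.rpow_le_rpow (Nat.cast_nonneg _) h1 (by norm_num)).trans (le_of_eq ?_)
  rw [← Real.rpow_natCast, ← Real.rpow_mul (by norm_num), ← Real.rpow_natCast]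
  congr 1
  push_cast
  ring

/-- Averaged growth of the potential along a random denominator. -/
lemma exists_Pot_step (Bad : Finset ℕ) (N n0 L T : ℕ) (F : ℝ) (hn0 : 1 ≤ n0)
    (hU : n0 + L ≤ 2 ^ (T + 3)) (hL : 2 ^ T ≤ 32 * (L * L))
    (hF : ∀ q ∈ Bad, 40 * ∑ d ∈ q.divisors, qw d ≤ F) (hpos : ∀ q ∈ Bad, 1 ≤ q) :
    ∃ n, n0 ≤ n ∧ n ≤ n0 + L ∧ Pot Bad (N * n) ≤ F * Pot Bad N := by
  classical
  have hkey : ∀ q ∈ Bad, ∑ n ∈ Icc n0 (n0 + L), (Nat.gcd q n : ℝ) ^ ((1 : ℝ) / 16)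
      ≤ ((L : ℝ) + 1) * F := by
    intro q hq
    have hq0 : q ≠ 0 := by have := hpos q hq; omega
    have h1 : ∀ n ∈ Icc n0 (n0 + L), (Nat.gcd q n : ℝ) ^ ((1 : ℝ) / 16) ≤
        ∑ d ∈ q.divisors, if d ∣ n then (d : ℝ) ^ ((1 : ℝ) / 16) else 0 := by
      intro n _
      have hmem : Nat.gcd q n ∈ q.divisors := Nat.mem_divisors.2 ⟨Nat.gcd_dvd_left q n, hq0⟩
      refine le_trans (le_of_eq ?_) (Finset.single_le_sum (fun d _ => ?_) hmem)
      · rw [if_pos (Nat.gcd_dvd_right q n)]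
      · split_ifs <;> positivity
    refine (Finset.sum_le_sum h1).trans ?_
    rw [Finset.sum_comm]
    refine le_trans (Finset.sum_le_sum (g := fun d => ((L : ℝ) + 1) * (40 * qw d)) fun d hd => ?_) ?_
    · have hd1 : 1 ≤ d := Nat.pos_of_mem_divisors hd
      have hdR : (1 : ℝ) ≤ d := by exact_mod_cast hd1
      rw [← Finset.sum_filter, Finset.sum_const, nsmul_eq_mul]
      rcases ((Icc n0 (n0 + L)).filter (d ∣ ·)).eq_empty_or_nonempty with he | ⟨n, hn⟩
      · rw [he]; simp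
        have := qw_nonneg d
        positivity
      obtain ⟨hnI, hdn⟩ := Finset.mem_filter.1 hn
      rw [Finset.mem_Icc] at hnI
      have hdU : d ≤ 2 ^ (T + 3) := (Nat.le_of_dvd (by omega) hdn).trans (hnI.2.trans hU)
      have hsq : (d : ℝ) ≤ 256 * ((L : ℝ) * L) := by
        have : d ≤ 256 * (L * L) := by
          refine hdU.trans ?_
          rw [pow_add]
          omega
        exact_mod_cast this
      set s := (d : ℝ) ^ ((1 : ℝ) / 2) with hs
      have hs0 : 0 < s := by positivity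
      have hss : s * s = d := by rw [hs, ← Real.rpow_add (by linarith)]; norm_num
      have hsL : s ≤ 16 * ((L : ℝ) + 1) := by
        have : (0 : ℝ) ≤ L := Nat.cast_nonneg L
        nlinarith
      have hc : (((Icc n0 (n0 + L)).filter (d ∣ ·)).card : ℝ) ≤ ((L : ℝ) + 1) * (40 / s) := by
        have h4 : (((Icc n0 (n0 + L)).filter (d ∣ ·)).card : ℝ) ≤ ((L / d : ℕ) : ℝ) + 2 := by
          exact_mod_cast card_multiples_le n0 L d
        refine h4.trans ?_
        have h5 : ((L / d : ℕ) : ℝ) * s ≤ L := by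
          have h6 : ((L / d : ℕ) : ℝ) * d ≤ L := by exact_mod_cast Nat.div_mul_le_self L d
          have h7 : s ≤ d := by
            rw [hs]
            calc (d : ℝ) ^ ((1 : ℝ) / 2) ≤ (d : ℝ) ^ (1 : ℝ) :=
                  Real.rpow_le_rpow_of_exponent_le hdR (by norm_num)
              _ = d := Real.rpow_one _
          exact (mul_le_mul_of_nonneg_left h7 (Nat.cast_nonneg _)).trans h6
        rw [mul_div_assoc', le_div_iff₀ hs0]
        have : (0 : ℝ) ≤ L := Nat.cast_nonneg L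
        nlinarith
      refine (mul_le_mul_of_nonneg_right hc (by positivity)).trans ?_
      rw [mul_assoc]
      refine mul_le_mul_of_nonneg_left ?_ (by positivity)
      rw [qw, hs, div_mul_eq_mul_div, mul_div_assoc, ← Real.rpow_sub (by linarith)]
      exact mul_le_mul_of_nonneg_left (Real.rpow_le_rpow_of_exponent_le hdR (by norm_num)) (by norm_num)
    · rw [← Finset.mul_sum, ← Finset.mul_sum]
      exact mul_le_mul_of_nonneg_left (hF q hq) (by positivity)
  obtain ⟨n, hn, hmin⟩ := Finset.exists_min_image (Icc n0 (n0 + L)) (fun n => Pot Bad (N * n))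
    ⟨n0, Finset.mem_Icc.2 ⟨le_rfl, Nat.le_add_right _ _⟩⟩
  refine ⟨n, (Finset.mem_Icc.1 hn).1, (Finset.mem_Icc.1 hn).2, ?_⟩
  have htot : ∑ m ∈ Icc n0 (n0 + L), Pot Bad (N * m) ≤ ((L : ℝ) + 1) * (F * Pot Bad N) := by
    unfold Pot
    rw [Finset.sum_comm, Finset.mul_sum, Finset.mul_sum]
    refine Finset.sum_le_sum fun q hq => ?_
    calc ∑ m ∈ Icc n0 (n0 + L), ((Nat.gcd q (N * m) : ℝ) / q) ^ ((1 : ℝ) / 16)
        ≤ ∑ m ∈ Icc n0 (n0 + L),
            (Nat.gcd q m : ℝ) ^ ((1 : ℝ) / 16) * ((Nat.gcd q N : ℝ) / q) ^ ((1 : ℝ) / 16) := by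
          refine Finset.sum_le_sum fun m _ => ?_
          rw [← Real.mul_rpow (by positivity) (by positivity)]
          refine Real.rpow_le_rpow (by positivity) ?_ (by norm_num)
          rw [← mul_div_assoc]
          apply div_le_div_of_nonneg_right _ (Nat.cast_nonneg q)
          have hdv : Nat.gcd q (N * m) ∣ Nat.gcd q N * Nat.gcd q m := Nat.gcd_mul_right_dvd_mul_gcd q N m
          have hp : 0 < Nat.gcd q N * Nat.gcd q m :=
            Nat.mul_pos (Nat.gcd_pos_of_pos_left _ (hpos q hq)) (Nat.gcd_pos_of_pos_left _ (hpos q hq))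
          have := Nat.le_of_dvd hp hdv
          rw [mul_comm (Nat.gcd q m : ℝ)]
          exact_mod_cast this
      _ = (∑ m ∈ Icc n0 (n0 + L), (Nat.gcd q m : ℝ) ^ ((1 : ℝ) / 16)) *
            ((Nat.gcd q N : ℝ) / q) ^ ((1 : ℝ) / 16) := by rw [Finset.sum_mul]
      _ ≤ _ := by
          rw [← mul_assoc]
          exact mul_le_mul_of_nonneg_right (hkey q hq) (by positivity)
  have hle := Finset.card_nsmul_le_sum (Icc n0 (n0 + L)) (fun m => Pot Bad (N * m))
    (Pot Bad (N * n)) hmin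
  rw [nsmul_eq_mul, Nat.card_Icc, show n0 + L + 1 - n0 = L + 1 by omega] at hle
  push_cast at hle
  exact le_of_mul_le_mul_left (hle.trans htot) (by positivity)

/-- Doubling phase. -/
theorem phase_one (Bad : Finset ℕ) (S : ℕ) (F : ℝ) (hF1 : 1 ≤ F)
    (hF : ∀ q ∈ Bad, 40 * ∑ d ∈ q.divisors, qw d ≤ F) (hpos : ∀ q ∈ Bad, 1 ≤ q) :
    ∀ (j a b T : ℕ), InWin a b T → 10 ≤ T → T ≤ 2 * S → S * 3 ^ j ≤ T * 4 ^ j →
      ∃ (m : Multiset ℕ) (a' b' T' : ℕ), m.card ≤ j ∧ (∀ n ∈ m, 1 ≤ n) ∧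
        rsum m + (a' : ℚ) / b' = (a : ℚ) / b ∧ InWin a' b' T' ∧ S ≤ T' ∧ T' ≤ 2 * S ∧
        b' * 2 ^ (3 * T) ≤ b * 2 ^ (3 * T') ∧ Pot Bad b' ≤ F ^ j * Pot Bad b := by
  intro j
  induction j with
  | zero =>
    intro a b T hw _ hT2 hS
    exact ⟨0, a, b, T, le_rfl, by simp, by simp [rsum], hw, by simpa using hS, hT2, le_rfl, by simp⟩
  | succ j ih =>
    intro a b T hw hT10 hT2 hS
    have hP0 : 0 ≤ Pot Bad b := Finset.sum_nonneg fun q _ => by positivity
    by_cases hTS : S ≤ T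
    · exact ⟨0, a, b, T, Nat.zero_le _, by simp, by simp [rsum], hw, hTS, hT2, le_rfl,
        le_mul_of_one_le_left hP0 (one_le_pow₀ hF1)⟩
    obtain ⟨n0, hn01, hn0U, hint⟩ := step_interval hw (g := T / 2) (by omega) (by omega)
    obtain ⟨n, hn, hn', hpot⟩ := exists_Pot_step Bad b n0 (2 ^ (T - T / 2 - 2)) T F hn01 hn0U
      (by
        rw [← pow_add, show (32 : ℕ) = 2 ^ 5 from rfl, ← pow_add]
        exact Nat.pow_le_pow_right Nat.two_pos (by omega)) hF hpos
    obtain ⟨hgt, hw'⟩ := hint n hn hn'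
    have hgrow : 4 * T ≤ 3 * (T + T / 2) := by omega
    have hS' : S * 3 ^ j ≤ (T + T / 2) * 4 ^ j := by
      have h1 : 3 * (S * 3 ^ j) ≤ 3 * ((T + T / 2) * 4 ^ j) := by
        calc 3 * (S * 3 ^ j) = S * 3 ^ (j + 1) := by ring
          _ ≤ T * 4 ^ (j + 1) := hS
          _ = 4 * T * 4 ^ j := by ring
          _ ≤ 3 * (T + T / 2) * 4 ^ j := Nat.mul_le_mul_right _ hgrow
          _ = _ := by ring
      omega
    obtain ⟨m, a', b', T', hc, hm, hsum, hw2, hT1, hT2', hb, hp⟩ :=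
      ih _ _ _ hw' (by omega) (by omega) hS'
    refine ⟨n ::ₘ m, a', b', T', by simp; omega, ?_, ?_, hw2, hT1, hT2', ?_, ?_⟩
    · intro i hi
      rcases Multiset.mem_cons.1 hi with rfl | hi
      exacts [by omega, hm i hi]
    · rw [rsum_cons, add_assoc, hsum, add_comm]
      exact sub_unit hw.pos_right (by omega) hgt.le
    · have hnU : n ≤ 2 ^ (T + 3) := hn'.trans hn0U
      have h1 : b' * 2 ^ (3 * (T + T / 2)) ≤ b * 2 ^ (T + 3) * 2 ^ (3 * T') :=
        hb.trans (Nat.mul_le_mul_right _ (Nat.mul_le_mul_left b hnU))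
      have h2 : 2 ^ (T + 3) * 2 ^ (3 * T) ≤ 2 ^ (3 * (T + T / 2)) := by
        rw [← pow_add]
        exact Nat.pow_le_pow_right Nat.two_pos (by omega)
      apply Nat.le_of_mul_le_mul_right (c := 2 ^ (T + 3)) _ (by positivity)
      calc b' * 2 ^ (3 * T) * 2 ^ (T + 3) = b' * (2 ^ (T + 3) * 2 ^ (3 * T)) := by ring
        _ ≤ b' * 2 ^ (3 * (T + T / 2)) := Nat.mul_le_mul_left _ h2
        _ ≤ b * 2 ^ (T + 3) * 2 ^ (3 * T') := h1
        _ = _ := by ring
    · refine hp.trans ?_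
      rw [pow_succ, mul_assoc]
      exact mul_le_mul_of_nonneg_left hpot (by positivity)

/-- A number without exceptional divisors. -/
def Admissible (Bad : Finset ℕ) (U B : ℕ) : Prop :=
  B ≠ 0 ∧ B ≤ 2 ^ U ∧ ∀ q ∈ Bad, ¬ q ∣ B

/-- Linear phase: every step gains `2 s`, where `S = 4 s`. -/
theorem phase_two (Bad : Finset ℕ) (s Z imax Tend : ℕ) (hs : 8 ≤ s)
    (hZlo : 2 ^ (4 * s) ≤ Z) (hZhi : Z ≤ 2 ^ (4 * s + 1)) (hZ : ∀ q ∈ Bad, ¬ q ∣ Z)
    (hpos : ∀ q ∈ Bad, 1 ≤ q)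
    (hβ : 3 * (∑ q ∈ Bad, (q : ℝ) ^ (-(1 / 16) : ℝ)) < 1)
    (himax : Tend ≤ imax * (4 * s)) (himax' : imax + 4 ≤ 4 * s) :
    ∀ (j a b T : ℕ), InWin a b T → 4 * s ≤ T → T ≤ Tend → Tend ≤ T + j * (2 * s) →
      ∃ (m : Multiset ℕ) (a' b' : ℕ) (Bs : List ℕ), m.card ≤ j ∧ (∀ n ∈ m, 1 ≤ n) ∧
        rsum m + (a' : ℚ) / b' = (a : ℚ) / b ∧ InWin a' b' Tend ∧ b' = b * Bs.prod ∧
        Bs.length ≤ j * (imax + 1) ∧ ∀ B ∈ Bs, Admissible Bad (8 * (4 * s)) B := by
  intro j
  induction j with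
  | zero =>
    intro a b T hw _ hTe hj
    have : T = Tend := by omega
    subst this
    exact ⟨0, a, b, [], le_rfl, by simp, by simp [rsum], hw, by simp, by simp, by simp⟩
  | succ j ih =>
    intro a b T hw hS hTe hj
    by_cases hTeq : T = Tend
    · subst hTeq
      exact ⟨0, a, b, [], Nat.zero_le _, by simp, by simp [rsum], hw, by simp, by simp, by simp⟩
    set g := min (2 * s) (Tend - T) with hg
    obtain ⟨n0, hn01, hn0U, hint⟩ := step_interval hw (g := g) (by omega) (by omega)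
    set i := (T - 4 * s) / (4 * s + 1) with hi
    set z := Z ^ i with hz
    have hi1 : (4 * s + 1) * i ≤ T - 4 * s := Nat.mul_div_le _ _
    have hi2 : T - 4 * s < (4 * s + 1) * (i + 1) := Nat.lt_mul_div_succ _ (by omega)
    have hi3 : i ≤ imax := by
      have h1 : (4 * s) * i ≤ imax * (4 * s) :=
        ((Nat.mul_le_mul_right i (by omega)).trans hi1).trans (by omega)
      rw [mul_comm imax] at h1
      exact Nat.le_of_mul_le_mul_left h1 (by omega)
    have hzhi : z ≤ 2 ^ (T - 4 * s) := by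
      refine (Nat.pow_le_pow_left hZhi i).trans ?_
      rw [← pow_mul]
      exact Nat.pow_le_pow_right Nat.two_pos hi1
    have hzlo : 2 ^ (4 * s * i) ≤ z := by
      rw [pow_mul]; exact Nat.pow_le_pow_left hZlo i
    have hzpos : 0 < z := lt_of_lt_of_le (by positivity) hzlo
    set L' := 2 ^ s with hL'
    set t0 := n0 / z + 1 with ht0
    have hzt0 : n0 < z * t0 ∧ z * t0 ≤ n0 + z := by
      constructor
      · exact Nat.lt_mul_div_succ _ hzpos
      · rw [ht0, Nat.mul_add, mul_one]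
        exact Nat.add_le_add_right (Nat.mul_div_le _ _) _
    have hzL : z + z * L' ≤ 2 ^ (T - g - 2) := by
      calc z + z * L' ≤ z * L' + z * L' :=
            Nat.add_le_add_right (Nat.le_mul_of_pos_right z (by positivity)) _
        _ ≤ 2 * (2 ^ (T - 4 * s) * L') := by
            rw [← two_mul]; exact Nat.mul_le_mul_left 2 (Nat.mul_le_mul_right _ hzhi)
        _ = 2 ^ (1 + (T - 4 * s + s)) := by rw [hL', pow_add, pow_add]; ring
        _ ≤ _ := Nat.pow_le_pow_right Nat.two_pos (by omega)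
    have htop : z * (t0 + L') ≤ n0 + 2 ^ (T - g - 2) := by
      rw [Nat.mul_add]; omega
    have htU : t0 + L' ≤ 2 ^ (12 * s) := by
      refine Nat.le_of_mul_le_mul_left ?_ hzpos
      refine htop.trans (hn0U.trans ?_)
      refine le_trans ?_ (Nat.mul_le_mul_right _ hzlo)
      rw [← pow_add]
      refine Nat.pow_le_pow_right Nat.two_pos ?_
      have : (4 * s + 1) * (i + 1) = 4 * s * i + i + 4 * s + 1 := by ring
      omega
    have hUL : (2 : ℝ) ^ (((12 * s : ℕ) : ℝ) / 16) ≤ (L' : ℝ) + 1 := by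
      have h1 : (2 : ℝ) ^ (((12 * s : ℕ) : ℝ) / 16) ≤ (2 : ℝ) ^ ((s : ℕ) : ℝ) := by
        apply Real.rpow_le_rpow_of_exponent_le (by norm_num)
        push_cast
        have : (0 : ℝ) ≤ s := Nat.cast_nonneg s
        linarith
      rw [Real.rpow_natCast] at h1
      have h2 : (L' : ℝ) = (2 : ℝ) ^ s := by rw [hL']; exact_mod_cast rfl
      exact h1.trans (by rw [h2]; linarith)
    obtain ⟨t, ht, ht', htB⟩ := exists_avoid Bad t0 L' (12 * s) (Nat.succ_pos _) htU hUL hpos hβ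
    have hn : n0 ≤ z * t := le_of_lt (lt_of_lt_of_le hzt0.1 (Nat.mul_le_mul_left z ht))
    have hn' : z * t ≤ n0 + 2 ^ (T - g - 2) := (Nat.mul_le_mul_left z ht').trans htop
    obtain ⟨hgt, hw'⟩ := hint (z * t) hn hn'
    obtain ⟨m, a', b', Bs, hc, hm, hsum, hw2, hb, hlen, hadm⟩ :=
      ih _ _ _ hw' (by omega) (by omega) (by
        rw [Nat.succ_mul] at hj
        omega)
    refine ⟨(z * t) ::ₘ m, a', b', List.replicate i Z ++ t :: Bs, by simp; omega, ?_, ?_, hw2,
      ?_, ?_, ?_⟩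
    · intro x hx
      rcases Multiset.mem_cons.1 hx with rfl | hx
      exacts [by omega, hm x hx]
    · rw [rsum_cons, add_assoc, hsum, add_comm]
      exact sub_unit hw.pos_right (by omega) hgt.le
    · rw [hb, List.prod_append, List.prod_replicate, List.prod_cons, hz]
      ring
    · simp only [List.length_append, List.length_replicate, List.length_cons]
      rw [Nat.succ_mul]
      omega
    · intro B hB
      rcases List.mem_append.1 hB with hB | hB
      · obtain ⟨-, rfl⟩ := List.mem_replicate.1 hB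
        refine ⟨?_, hZhi.trans (Nat.pow_le_pow_right Nat.two_pos (by omega)), hZ⟩
        have := Nat.one_le_two_pow (n := 4 * s)
        omega
      · rcases List.mem_cons.1 hB with rfl | hB
        · refine ⟨Nat.one_le_iff_ne_zero.1 (le_trans (Nat.succ_pos (n0 / z)) ht), (ht'.trans htU).trans (Nat.pow_le_pow_right Nat.two_pos (by omega)), htB⟩
        · exact hadm B hB

/-- A few ordinary greedy steps. -/
theorem pre_phase : ∀ (j a b : ℕ), 0 < a → a < b → 2 ^ 11 * a < 2 ^ j * b →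
    ∃ (m : Multiset ℕ) (a' b' : ℕ), m.card ≤ j ∧ (∀ n ∈ m, 1 ≤ n) ∧
      rsum m + (a' : ℚ) / b' = (a : ℚ) / b ∧ 0 < a' ∧ 2 ^ 11 * a' < b' ∧ b' ≤ b * 2 ^ (12 * j) := by
  intro j
  induction j with
  | zero =>
    intro a b ha _ h
    exact ⟨0, a, b, le_rfl, by simp, by simp [rsum], ha, by simpa using h, by simp⟩
  | succ j ih =>
    intro a b ha hab h
    by_cases hd : 2 ^ 11 * a < b
    · exact ⟨0, a, b, Nat.zero_le _, by simp, by simp [rsum], ha, hd,
        Nat.le_mul_of_pos_right _ (by positivity)⟩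
    set n := b / a + 1 with hn
    have h1 : b < a * n := Nat.lt_mul_div_succ b ha
    have h2 : a * n ≤ b + a := by
      rw [hn, Nat.mul_add, mul_one]; exact Nat.add_le_add_right (Nat.mul_div_le b a) a
    have hn2 : 2 ≤ n := by
      have : 1 ≤ b / a := Nat.div_pos hab.le ha
      omega
    have hn12 : n ≤ 2 ^ 12 := by
      have : b / a ≤ 2 ^ 11 := Nat.div_le_of_le_mul (by rw [mul_comm]; omega)
      omega
    have hlt : a * n - b < b * n := by
      calc a * n - b ≤ a := by omega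
        _ < b := hab
        _ ≤ b * n := Nat.le_mul_of_pos_right _ (by omega)
    obtain ⟨m, a', b', hc, hm, hsum, ha', hlt', hb⟩ := ih (a * n - b) (b * n) (by omega) hlt (by
      calc 2 ^ 11 * (a * n - b) ≤ 2 ^ 11 * a := Nat.mul_le_mul_left _ (by omega)
        _ < 2 ^ (j + 1) * b := h
        _ = 2 ^ j * (b * 2) := by rw [pow_succ]; ring
        _ ≤ _ := Nat.mul_le_mul_left _ (Nat.mul_le_mul_left b hn2))
    refine ⟨n ::ₘ m, a', b', by simp; omega, ?_, ?_, ha', hlt', ?_⟩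
    · intro x hx
      rcases Multiset.mem_cons.1 hx with rfl | hx
      exacts [by omega, hm x hx]
    · rw [rsum_cons, add_assoc, hsum, add_comm]
      exact sub_unit (by omega) (by omega) h1.le
    · refine hb.trans ?_
      calc b * n * 2 ^ (12 * j) ≤ b * 2 ^ 12 * 2 ^ (12 * j) :=
            Nat.mul_le_mul_right _ (Nat.mul_le_mul_left b hn12)
        _ = _ := by rw [show 12 * (j + 1) = 12 + 12 * j by ring, pow_add]; ring

end Vale.Agent.P012
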