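import Vale.Agent.P012.System
import Vale.Agent.P012.Greedy

/-!
# Assembling the expansion
-/

namespace Vale.Agent.P012

open Finset Filter

/-- The unit fractions coming from a representation by divisors of `D`. -/
lemma rep_to_fracs {D k x : ℕ} (hD : 0 < D) (h : Rep D k x) :
    ∃ m : Multiset ℕ, m.card ≤ k ∧ (∀ n ∈ m, 1 ≤ n) ∧ rsum m = (x : ℚ) / D := by
  obtain ⟨t, hc, hd, hs⟩ := h
  refine ⟨t.map (fun d => D / d), by simpa, ?_, ?_⟩
  · intro n hn
    obtain ⟨d, hdt, rfl⟩ := Multiset.mem_map.1 hn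
    exact Nat.div_pos (Nat.le_of_dvd hD (hd d hdt)) (Nat.pos_of_dvd_of_pos (hd d hdt) hD)
  · subst hs
    unfold rsum
    rw [Multiset.map_map, Nat.cast_multiset_sum, ← Multiset.sum_map_div]
    refine congrArg _ (Multiset.map_congr rfl fun d hdt => ?_)
    obtain ⟨e, he⟩ := hd d hdt
    have hd0 : 0 < d := Nat.pos_of_dvd_of_pos (hd d hdt) hD
    simp only [Function.comp]
    subst he
    rw [Nat.mul_div_cancel_left e hd0]
    have : (d : ℚ) ≠ 0 := by positivity
    push_cast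
    field_simp

/-- Mixed radix covering. -/
lemma mixed_radix (M T X : ℕ) : ∀ Bs : List ℕ, (∀ B ∈ Bs, B ≠ 0) →
    (∀ B ∈ Bs, ∀ c, ∃ x, Rep M T x ∧ x ≤ X ∧ x % B = c % B) → ∀ c,
    ∃ r, Rep (Bs.prod * M) (Bs.length * T) r ∧ r ≤ Bs.prod * (Bs.length * X) ∧
      r % Bs.prod = c % Bs.prod := by
  intro Bs
  induction Bs with
  | nil => intro _ _ c; exact ⟨0, by simpa using Rep.zero (1 * M), by simp, by simp [Nat.mod_one]⟩
  | cons B Bs ih =>
    intro h0 hcov c
    obtain ⟨r0, hr0, hr0X, hr0m⟩ := hcov B List.mem_cons_self c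
    have hB : 0 < B := Nat.pos_of_ne_zero (h0 B List.mem_cons_self)
    set P := Bs.prod with hP
    have hP0 : 0 < P := Nat.pos_of_ne_zero
      (List.prod_ne_zero fun h => (h0 0 (List.mem_cons_of_mem B h)) rfl)
    set big := c + B * P * r0 with hbig
    have hle : r0 ≤ big := le_trans (Nat.le_mul_of_pos_left r0 (Nat.mul_pos hB hP0)) (Nat.le_add_left _ _)
    have hdvd : B ∣ big - r0 := by
      apply (Nat.modEq_iff_dvd' hle).1
      show r0 % B = big % B
      rw [hr0m, hbig, Nat.mul_assoc, Nat.add_mul_mod_self_left]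
    obtain ⟨c', hc'⟩ := hdvd
    obtain ⟨r, hr, hrX, hrm⟩ := ih (fun x hx => h0 x (List.mem_cons_of_mem B hx))
      (fun x hx => hcov x (List.mem_cons_of_mem B hx)) c'
    simp only [List.prod_cons, List.length_cons, ← hP]
    refine ⟨r0 + B * r, ?_, ?_, ?_⟩
    · rw [Nat.succ_mul, Nat.add_comm, mul_assoc, Nat.add_comm r0]
      refine ((hr.smul B).add (hr0.mono ?_ le_rfl)).mono dvd_rfl (by omega)
      exact ⟨B * P, by ring⟩
    · calc r0 + B * r ≤ B * P * X + B * (P * (Bs.length * X)) :=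
            Nat.add_le_add (hr0X.trans (Nat.le_mul_of_pos_left X (Nat.mul_pos hB hP0)))
              (Nat.mul_le_mul_left B hrX)
        _ = _ := by ring
    · have h1 : B * r ≡ B * c' [MOD B * P] := Nat.ModEq.mul_left' B hrm
      have h2 : r0 + B * r ≡ r0 + B * c' [MOD B * P] := Nat.ModEq.add_left r0 h1
      have h3 : r0 + B * c' = big := by omega
      rw [h3] at h2
      refine h2.trans ?_
      show big % (B * P) = c % (B * P)
      rw [hbig, Nat.add_mul_mod_self_left]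

/-- Among few consecutive integers below `q` one has a small common divisor with `M`. -/
lemma exists_small_gcd {q M E N U : ℕ} (hM : 0 < M) (hNq : N ≤ q) (hMU : M ≤ 2 ^ U)
    (hEN : U + N * (N * N) < E * N) : ∃ j, j < N ∧ Nat.gcd (q - j) M < 2 ^ E := by
  by_contra hno
  push Not at hno
  set g : ℕ → ℕ := fun j => Nat.gcd (q - j) M with hg
  have key : ∀ n, n ≤ N → ∃ L, L ∣ M ∧ (∀ i, i < n → g i ∣ L) ∧
      (∀ h, Nat.gcd L h ∣ ∏ i ∈ range n, Nat.gcd (g i) h) ∧
      2 ^ (E * n) ≤ L * N ^ (n * N) := by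
    intro n
    induction n with
    | zero => exact fun _ => ⟨1, one_dvd M, by simp, by simp, by simp⟩
    | succ n ih =>
      intro hn
      obtain ⟨L, hLM, hgL, hgcd, hsize⟩ := ih (by omega)
      refine ⟨Nat.lcm L (g n), Nat.lcm_dvd hLM (Nat.gcd_dvd_right _ _), ?_, ?_, ?_⟩
      · intro i hi
        rcases Nat.lt_succ_iff_lt_or_eq.1 hi with h | h
        · exact (hgL i h).trans (Nat.dvd_lcm_left _ _)
        · exact h ▸ Nat.dvd_lcm_right _ _
      · intro h
        rw [Finset.prod_range_succ]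
        refine (Nat.gcd_dvd_gcd_of_dvd_left h (Nat.lcm_dvd (dvd_mul_right L (g n)) (dvd_mul_left (g n) L))).trans ?_
        rw [Nat.gcd_comm]
        refine (Nat.gcd_mul_right_dvd_mul_gcd h L (g n)).trans ?_
        rw [Nat.gcd_comm h L, Nat.gcd_comm h (g n)]
        exact Nat.mul_dvd_mul_right (hgcd h) _
      · have hgn : 2 ^ E ≤ g n := hno n (by omega)
        have hgcdle : Nat.gcd L (g n) ≤ N ^ N := by
          have hterm : ∀ i ∈ range n, 0 < Nat.gcd (g i) (g n) ∧ Nat.gcd (g i) (g n) ≤ N := by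
            intro i hi
            rw [Finset.mem_range] at hi
            have h1 : Nat.gcd (g i) (g n) ∣ q - i := (Nat.gcd_dvd_left _ _).trans (Nat.gcd_dvd_left _ _)
            have h2 : Nat.gcd (g i) (g n) ∣ q - n := (Nat.gcd_dvd_right _ _).trans (Nat.gcd_dvd_left _ _)
            have h3 := Nat.dvd_sub h1 h2
            rw [show q - i - (q - n) = n - i by omega] at h3
            refine ⟨Nat.pos_of_dvd_of_pos h3 (by omega), (Nat.le_of_dvd (by omega) h3).trans (by omega)⟩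
          calc Nat.gcd L (g n) ≤ ∏ i ∈ range n, Nat.gcd (g i) (g n) :=
                Nat.le_of_dvd (Finset.prod_pos fun i hi => (hterm i hi).1) (hgcd (g n))
            _ ≤ ∏ _i ∈ range n, N := Finset.prod_le_prod' fun i hi => (hterm i hi).2
            _ = N ^ n := by simp
            _ ≤ N ^ N := Nat.pow_le_pow_right (by omega) (by omega)
        calc 2 ^ (E * (n + 1)) = 2 ^ (E * n) * 2 ^ E := by rw [← pow_add]; ring_nf
          _ ≤ L * N ^ (n * N) * g n := Nat.mul_le_mul hsize hgn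
          _ = Nat.gcd L (g n) * Nat.lcm L (g n) * N ^ (n * N) := by rw [Nat.gcd_mul_lcm]; ring
          _ ≤ N ^ N * Nat.lcm L (g n) * N ^ (n * N) :=
              Nat.mul_le_mul_right _ (Nat.mul_le_mul_right _ hgcdle)
          _ = _ := by rw [Nat.succ_mul, pow_add]; ring
  obtain ⟨L, hLM, -, -, hsize⟩ := key N le_rfl
  have h1 : L ≤ 2 ^ U := (Nat.le_of_dvd hM hLM).trans hMU
  have h2 : N ^ (N * N) ≤ 2 ^ (N * (N * N)) := by
    rw [pow_mul 2]; exact Nat.pow_le_pow_left Nat.lt_two_pow_self.le _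
  have h3 : 2 ^ (E * N) ≤ 2 ^ (U + N * (N * N)) := by
    rw [pow_add]; exact hsize.trans (Nat.mul_le_mul h1 h2)
  have := (Nat.pow_le_pow_iff_right (by norm_num)).1 h3
  omega

lemma card_prog_le {q q' : ℕ} (hq : 1 ≤ q) (c J : ℕ) :
    ((Icc 0 J).filter (fun j => q ∣ c + j * q')).card ≤ J * Nat.gcd q q' / q + 2 := by
  set g := Nat.gcd q q' with hg
  have hgpos : 0 < g := Nat.gcd_pos_of_pos_left _ hq
  obtain ⟨d, hd⟩ : g ∣ q := Nat.gcd_dvd_left q q'
  have hd0 : 0 < d := Nat.pos_of_ne_zero fun h => by rw [h, mul_zero] at hd; omega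
  refine (Finset.card_le_card_of_injOn (t := Icc 0 (J / d)) (fun j => j / d) ?_ ?_).trans ?_
  · intro j hj
    have := (Finset.mem_Icc.1 (Finset.mem_filter.1 hj).1).2
    simp only [Finset.coe_Icc, Set.mem_Icc]
    exact ⟨Nat.zero_le _, Nat.div_le_div_right this⟩
  · intro x hx y hy hxy
    have hxy : x / d = y / d := hxy
    have hm : x * q' ≡ y * q' [MOD q] := Nat.ModEq.add_left_cancel' c
      ((Nat.modEq_zero_iff_dvd.2 (Finset.mem_filter.1 hx).2).trans
        (Nat.modEq_zero_iff_dvd.2 (Finset.mem_filter.1 hy).2).symm)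
    have hm2 : x ≡ y [MOD q / g] := Nat.ModEq.cancel_right_div_gcd hq hm
    rw [hd, Nat.mul_div_cancel_left d hgpos] at hm2
    rw [← Nat.div_add_mod x d, ← Nat.div_add_mod y d, hxy, hm2]
  · rw [Nat.card_Icc, hd, Nat.mul_comm g d, Nat.mul_div_mul_right _ _ hgpos]
    generalize J / d = u
    omega

/-- The last step: `q / M`. -/
theorem final_stage {M E N U W G T : ℕ} (Bad : Finset ℕ) (hM : 0 < M) (hMU : M ≤ 2 ^ U)
    (hEN : U + N * (N * N) < E * N) (hpos : ∀ x ∈ Bad, 1 ≤ x) (hW : ∀ x ∈ Bad, x ≤ 2 ^ W)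
    (hG : W ≤ 16 * G) (hEG : E ≤ G)
    (hβ : 3 * (2 : ℝ) ^ E * (∑ x ∈ Bad, (x : ℝ) ^ (-(1 / 16) : ℝ)) < 1)
    (hcov : ∀ B, B ≠ 0 → B ≤ 2 ^ W → (∀ x ∈ Bad, ¬ x ∣ B) → ∀ c,
      ∃ x, Rep M T x ∧ x % B = c % B)
    {q : ℕ} (hqW : q * (2 ^ G + 1) ≤ 2 ^ W) :
    ∃ m : Multiset ℕ, m.card ≤ N + 2 + T ∧ (∀ n ∈ m, 1 ≤ n) ∧ rsum m = (q : ℚ) / M := by
  classical
  have hMQ : (M : ℚ) ≠ 0 := by positivity
  by_cases hqN : q < N
  · refine ⟨Multiset.replicate q M, by simp; omega, fun n hn => ?_, ?_⟩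
    · rw [Multiset.eq_of_mem_replicate hn]; exact hM
    · simp [rsum, Multiset.map_replicate, Multiset.sum_replicate, div_eq_mul_inv]
  push Not at hqN
  obtain ⟨j0, hj0, hgcd⟩ := exists_small_gcd hM hqN hMU hEN
  set q' := q - j0 with hq'
  have hq'pos : 0 < q' := by omega
  set J := 2 ^ G with hJ
  have hJ1 : 1 ≤ J := Nat.one_le_two_pow
  -- `s(j) = c + j q'`
  set n1 := M / q' + 1 with hn1
  have hc1 : M < q' * n1 := Nat.lt_mul_div_succ M hq'pos
  have hc2 : q' * n1 ≤ M + q' := by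
    rw [hn1, Nat.mul_add, mul_one]; exact Nat.add_le_add_right (Nat.mul_div_le M q') q'
  set c := q' * n1 - M with hc
  have hexj : ∃ j, j ≤ J ∧ ∀ x ∈ Bad, ¬ x ∣ c + j * q' := by
    by_contra hno
    push Not at hno
    have h1 : (Icc 0 J).card ≤ ∑ x ∈ Bad, ((Icc 0 J).filter (fun j => x ∣ c + j * q')).card := by
      refine le_trans (Finset.card_le_card fun j hj => ?_) Finset.card_biUnion_le
      obtain ⟨x, hx, hxj⟩ := hno j (Finset.mem_Icc.1 hj).2
      exact Finset.mem_biUnion.2 ⟨x, hx, Finset.mem_filter.2 ⟨hj, hxj⟩⟩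
    have h2 : ∀ x ∈ Bad, (((Icc 0 J).filter (fun j => x ∣ c + j * q')).card : ℝ) ≤
        ((J : ℝ) + 1) * (3 * (2 : ℝ) ^ E * (x : ℝ) ^ (-(1 / 16) : ℝ)) := by
      intro x hx
      have hx1 := hpos x hx
      have hxR : (1 : ℝ) ≤ x := by exact_mod_cast hx1
      rcases ((Icc 0 J).filter (fun j => x ∣ c + j * q')).eq_empty_or_nonempty with he | ⟨j, hj⟩
      · rw [he]; simp; positivity
      have hxd := (Finset.mem_filter.1 hj).2
      set g := Nat.gcd x q' with hg
      have hgM : g ∣ M := by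
        have hgq : g ∣ q' := Nat.gcd_dvd_right x q'
        have h3 : g ∣ c := (Nat.dvd_add_left (Dvd.dvd.mul_left hgq j)).1 ((Nat.gcd_dvd_left x q').trans hxd)
        have h4 : M = q' * n1 - c := by omega
        rw [h4]
        exact Nat.dvd_sub (Dvd.dvd.mul_right hgq n1) h3
      have hgE : g ≤ 2 ^ E :=
        (Nat.le_of_dvd (Nat.gcd_pos_of_pos_right _ hM)
          (Nat.dvd_gcd (Nat.gcd_dvd_right x q') hgM)).trans hgcd.le
      set w := (x : ℝ) ^ (-(1 / 16) : ℝ) with hw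
      have hw1 : (x : ℝ)⁻¹ ≤ w := by
        rw [hw, ← Real.rpow_neg_one]
        exact Real.rpow_le_rpow_of_exponent_le hxR (by norm_num)
      have hw2 : 1 ≤ ((J : ℝ) + 1) * w := by
        rw [hw, Real.rpow_neg (by linarith), ← div_eq_mul_inv, one_le_div (by positivity)]
        calc (x : ℝ) ^ ((1 : ℝ) / 16) ≤ ((2 : ℝ) ^ (16 * G)) ^ ((1 : ℝ) / 16) := by
              refine Real.rpow_le_rpow (by linarith) ?_ (by norm_num)
              exact_mod_cast (hW x hx).trans (Nat.pow_le_pow_right Nat.two_pos hG)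
          _ = (J : ℝ) := by
              rw [← Real.rpow_natCast, ← Real.rpow_mul (by norm_num), hJ]
              push_cast
              rw [← Real.rpow_natCast 2 G]
              congr 1
              ring
          _ ≤ _ := by linarith
      have h4 : (((Icc 0 J).filter (fun j => x ∣ c + j * q')).card : ℝ)
          ≤ ((J * g / x : ℕ) : ℝ) + 2 := by exact_mod_cast card_prog_le hx1 c J
      have hg2 : (g : ℝ) ≤ (2 : ℝ) ^ E := by exact_mod_cast hgE
      have h5 : ((J * g / x : ℕ) : ℝ) ≤ (J : ℝ) * (2 : ℝ) ^ E * w := by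
        refine Nat.cast_div_le.trans ?_
        push_cast
        rw [div_eq_mul_inv]
        gcongr
      have hE1 : (1 : ℝ) ≤ (2 : ℝ) ^ E := one_le_pow₀ (by norm_num)
      have hw0 : 0 ≤ w := le_trans (by positivity) hw1
      have hJ0 : (0 : ℝ) ≤ J := Nat.cast_nonneg J
      nlinarith [mul_le_mul_of_nonneg_left hE1 (mul_nonneg (by linarith : (0:ℝ) ≤ (J:ℝ) + 1) hw0)]
    rw [Nat.card_Icc] at h1
    have h1R : ((J : ℝ) + 1) ≤ ∑ x ∈ Bad, (((Icc 0 J).filter (fun j => x ∣ c + j * q')).card : ℝ) := by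
      have : J + 1 ≤ ∑ x ∈ Bad, ((Icc 0 J).filter (fun j => x ∣ c + j * q')).card := by omega
      exact_mod_cast this
    have h6 := h1R.trans (Finset.sum_le_sum h2)
    rw [← Finset.mul_sum, ← Finset.mul_sum] at h6
    have : (0 : ℝ) < (J : ℝ) + 1 := by positivity
    nlinarith
  obtain ⟨j, hj, hjB⟩ := hexj
  set s1 := c + j * q' with hs1
  have hs1pos : 0 < s1 := by omega
  have hs1W : s1 ≤ 2 ^ W := by
    refine le_trans ?_ hqW
    calc s1 ≤ q' + J * q' := Nat.add_le_add (by omega) (Nat.mul_le_mul_right _ hj)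
      _ = q' * (J + 1) := by ring
      _ ≤ q * (J + 1) := Nat.mul_le_mul_right _ (by omega)
  set n := n1 + j with hn
  have hnpos : 0 < n := by
    have : 0 < n1 := Nat.succ_pos _
    rw [hn]; omega
  have hMn : 0 < M * n := Nat.mul_pos hM hnpos
  have hs1eq : q' * n = M + s1 := by
    rw [hn, Nat.mul_add, hs1, Nat.mul_comm q' j]; omega
  -- choose `r ≡ - M n  (mod s1)`
  obtain ⟨r, hr, hrm⟩ := hcov s1 hs1pos.ne' hs1W hjB (M * n * (s1 - 1))
  have hdvd : s1 ∣ M * n + r := by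
    apply Nat.dvd_of_mod_eq_zero
    have h1 : M * n + M * n * (s1 - 1) = M * n * s1 := by
      rw [Nat.add_comm, ← Nat.mul_succ, Nat.succ_eq_add_one, Nat.sub_add_cancel hs1pos]
    rw [Nat.add_mod, hrm, ← Nat.add_mod, h1, Nat.mul_mod_left]
  obtain ⟨n2, hn2⟩ := hdvd
  have hn2pos : 0 < n2 := Nat.pos_of_ne_zero fun h => by rw [h, mul_zero] at hn2; omega
  obtain ⟨mr, hmrc, hmrp, hmrs⟩ := rep_to_fracs (Nat.mul_pos hMn hn2pos)
    (hr.mono (Dvd.dvd.mul_right (dvd_mul_right M n) n2) le_rfl)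
  refine ⟨Multiset.replicate j0 M + (n ::ₘ n2 ::ₘ mr), by simp; omega, ?_, ?_⟩
  · intro x hx
    rcases Multiset.mem_add.1 hx with hx | hx
    · rw [Multiset.eq_of_mem_replicate hx]; exact hM
    rcases Multiset.mem_cons.1 hx with rfl | hx
    · omega
    rcases Multiset.mem_cons.1 hx with rfl | hx
    · exact hn2pos
    · exact hmrp x hx
  · rw [rsum_add, rsum_cons, rsum_cons, hmrs]
    have hrep : rsum (Multiset.replicate j0 M) = (j0 : ℚ) / M := by
      simp [rsum, Multiset.map_replicate, Multiset.sum_replicate, div_eq_mul_inv]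
    rw [hrep]
    have hqQ : (q : ℚ) = (j0 : ℚ) + (q' : ℚ) := by
      rw [← Nat.cast_add, hq', Nat.add_sub_cancel' (by omega : j0 ≤ q)]
    have e1 : (q' : ℚ) * (n : ℚ) = (M : ℚ) + (s1 : ℚ) := by exact_mod_cast hs1eq
    have e2 : (M : ℚ) * (n : ℚ) + (r : ℚ) = (s1 : ℚ) * (n2 : ℚ) := by exact_mod_cast hn2
    have hnQ : (n : ℚ) ≠ 0 := by
      have : 0 < n := by omega
      positivity
    have hn2Q : (n2 : ℚ) ≠ 0 := by positivity
    push_cast
    rw [hqQ]
    field_simp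
    linear_combination e2 - (n2 : ℚ) * e1

end Vale.Agent.P012
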