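import Mathlib

/-!
# Exponential sums over finite families, covering of residues, random multipliers
-/

namespace Vale.Agent.P012

open Finset Complex

/-- `ee q n = exp (2 π i n / q)`. -/
noncomputable def ee (q : ℕ) (n : ℤ) : ℂ :=
  Complex.exp (((2 * Real.pi * ((n : ℝ) / (q : ℝ)) : ℝ) : ℂ) * Complex.I)

lemma ee_add (q : ℕ) (m n : ℤ) : ee q (m + n) = ee q m * ee q n := by
  rw [ee, ee, ee, ← Complex.exp_add]
  congr 1
  push_cast
  ring

lemma ee_zero (q : ℕ) : ee q 0 = 1 := by simp [ee]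

lemma norm_ee (q : ℕ) (n : ℤ) : ‖ee q n‖ = 1 := Complex.norm_exp_ofReal_mul_I _

lemma conj_ee (q : ℕ) (n : ℤ) : (starRingEnd ℂ) (ee q n) = ee q (-n) := by
  rw [ee, ee, ← Complex.exp_conj]
  congr 1
  simp only [map_mul, Complex.conj_ofReal, Complex.conj_I]
  push_cast
  ring

lemma ee_scale {g : ℕ} (hg : g ≠ 0) (q : ℕ) (n : ℤ) : ee (g * q) (g * n) = ee q n := by
  unfold ee
  push_cast
  rw [mul_div_mul_left _ _ (by exact_mod_cast hg : (g : ℂ) ≠ 0)]

lemma ee_eq_one_iff {q : ℕ} (hq : q ≠ 0) (n : ℤ) : ee q n = 1 ↔ (q : ℤ) ∣ n := by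
  unfold ee
  rw [Complex.exp_eq_one_iff]
  have hqR : (q : ℝ) ≠ 0 := by exact_mod_cast hq
  constructor
  · rintro ⟨j, hj⟩
    refine ⟨j, ?_⟩
    have h1 := congrArg Complex.im hj
    simp at h1
    field_simp at h1
    have h2 : (n : ℝ) = q * j := by
      have h := Real.pi_pos
      nlinarith
    exact_mod_cast h2
  · rintro ⟨j, rfl⟩
    refine ⟨j, ?_⟩
    push_cast
    have hqC : (q : ℂ) ≠ 0 := by exact_mod_cast hq
    field_simp

lemma ee_nsmul (q : ℕ) (t : ℕ) (n : ℤ) : ee q (t * n) = ee q n ^ t := by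
  induction t with
  | zero => simp [ee_zero]
  | succ t ih =>
    rw [pow_succ, ← ih, ← ee_add]
    congr 1
    push_cast
    ring

lemma sum_ee {B : ℕ} (hB : B ≠ 0) (n : ℤ) :
    ∑ t ∈ range B, ee B (t * n) = if (B : ℤ) ∣ n then (B : ℂ) else 0 := by
  simp only [ee_nsmul]
  split_ifs with h
  · simp [(ee_eq_one_iff hB n).2 h]
  · have hne : ee B n ≠ 1 := fun h1 => h ((ee_eq_one_iff hB n).1 h1)
    rw [geom_sum_eq hne]
    have : ee B n ^ B = 1 := by
      rw [← ee_nsmul]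
      exact (ee_eq_one_iff hB _).2 ⟨n, rfl⟩
    simp [this]

lemma norm_geom_le {q : ℕ} (hq : q ≠ 0) (z : ℂ) (hz1 : z ≠ 1) (hzq : z ^ q = 1) (hz : ‖z‖ = 1)
    (N : ℕ) : ‖∑ t ∈ range N, z ^ t‖ ≤ q := by
  induction N using Nat.strong_induction_on with
  | _ N ih =>
    by_cases hN : N < q
    · calc ‖∑ t ∈ range N, z ^ t‖ ≤ ∑ t ∈ range N, ‖z ^ t‖ := norm_sum_le _ _
        _ = N := by simp [norm_pow, hz]
        _ ≤ q := by exact_mod_cast hN.le
    · obtain ⟨M, rfl⟩ : ∃ M, N = q + M := ⟨N - q, by omega⟩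
      rw [Finset.sum_range_add]
      have h0 : ∑ t ∈ range q, z ^ t = 0 := by
        rw [geom_sum_eq hz1, hzq]
        simp
      rw [h0, zero_add]
      simp only [pow_add, hzq, one_mul]
      exact ih M (by omega)

variable {ι κ : Type*} [Fintype ι] [Fintype κ]

/-- The normalised exponential sum of a finite family of values. -/
noncomputable def S (v : ι → ℕ) (q : ℕ) (a : ℕ) : ℂ :=
  (∑ i, ee q ((a : ℤ) * v i)) / Fintype.card ι

/-- `|S|²`. -/
noncomputable def Psi (v : ι → ℕ) (q : ℕ) (a : ℕ) : ℝ := Complex.normSq (S v q a)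

lemma Psi_nonneg (v : ι → ℕ) (q a : ℕ) : 0 ≤ Psi v q a := Complex.normSq_nonneg _

lemma norm_S_le (v : ι → ℕ) (q a : ℕ) : ‖S v q a‖ ≤ 1 := by
  rw [S, norm_div, Complex.norm_natCast]
  apply div_le_one_of_le₀ _ (by positivity)
  refine (norm_sum_le _ _).trans ?_
  simp [norm_ee]

lemma Psi_le_one (v : ι → ℕ) (q a : ℕ) : Psi v q a ≤ 1 := by
  rw [Psi, Complex.normSq_eq_norm_sq]
  have := norm_S_le v q a
  have := norm_nonneg (S v q a)
  nlinarith

lemma S_pair (u : ι → ℕ) (w : κ → ℕ) (q a : ℕ) :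
    S (fun x : ι × κ => u x.1 + w x.2) q a = S u q a * S w q a := by
  rw [S, S, S, Fintype.card_prod, Fintype.sum_prod_type, div_mul_div_comm, Finset.sum_mul_sum]
  push_cast
  simp only [mul_add, ee_add]

lemma Psi_pair (u : ι → ℕ) (w : κ → ℕ) (q a : ℕ) :
    Psi (fun x : ι × κ => u x.1 + w x.2) q a = Psi u q a * Psi w q a := by
  rw [Psi, S_pair, map_mul]
  rfl

lemma ee_sum {σ : Type*} (s : Finset σ) (q : ℕ) (f : σ → ℤ) :
    ee q (∑ x ∈ s, f x) = ∏ x ∈ s, ee q (f x) := by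
  classical
  induction s using Finset.induction with
  | empty => simp [ee_zero]
  | insert x s hx ih => rw [Finset.sum_insert hx, Finset.prod_insert hx, ee_add, ih]

lemma S_pi {m : ℕ} (v : Fin m → ι → ℕ) (q a : ℕ) :
    S (fun f : Fin m → ι => ∑ s, v s (f s)) q a = ∏ s, S (v s) q a := by
  simp only [S, Finset.prod_div_distrib, Fintype.card_pi, Finset.prod_const, Finset.card_univ,
    Fintype.card_fin]
  congr 1
  · push_cast
    simp only [Finset.mul_sum, ee_sum]
    rw [Fintype.prod_sum]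
  · push_cast
    rfl

lemma Psi_pi {m : ℕ} (v : Fin m → ι → ℕ) (q a : ℕ) :
    Psi (fun f : Fin m → ι => ∑ s, v s (f s)) q a = ∏ s, Psi (v s) q a := by
  rw [Psi, S_pi, map_prod]
  rfl

lemma Psi_scale (v : ι → ℕ) {g : ℕ} (hg : g ≠ 0) (q a : ℕ) :
    Psi v (g * q) (g * a) = Psi v q a := by
  unfold Psi S
  congr 2
  refine Finset.sum_congr rfl fun i _ => ?_
  rw [← ee_scale hg q]
  congr 1
  push_cast
  ring

/-- Total mass at reduced frequencies of denominator `q`. -/
noncomputable def W (v : ι → ℕ) (q : ℕ) : ℝ :=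
  ∑ a ∈ (range q).filter (Nat.Coprime · q), Psi v q a

lemma W_nonneg (v : ι → ℕ) (q : ℕ) : 0 ≤ W v q :=
  Finset.sum_nonneg fun _ _ => Psi_nonneg _ _ _

lemma sum_Psi_le_sum_W (v : ι → ℕ) {B : ℕ} (hB : B ≠ 0) :
    ∑ t ∈ Ico 1 B, Psi v B t ≤ ∑ q ∈ B.divisors.erase 1, W v q := by
  classical
  simp only [W]
  rw [Finset.sum_sigma']
  let φ : ℕ → (_ : ℕ) × ℕ := fun t => ⟨B / Nat.gcd t B, t / Nat.gcd t B⟩
  have hval : ∀ t ∈ Ico 1 B, Psi v B t = Psi v (φ t).1 (φ t).2 := by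
    intro t ht
    have hg : Nat.gcd t B ≠ 0 := fun h => hB (Nat.eq_zero_of_gcd_eq_zero_right h)
    conv_rhs => rw [← Psi_scale v hg]
    rw [Nat.mul_div_cancel' (Nat.gcd_dvd_left t B), Nat.mul_div_cancel' (Nat.gcd_dvd_right t B)]
  rw [Finset.sum_congr rfl hval]
  have hinj : Set.InjOn φ (Ico 1 B : Finset ℕ) := by
    intro x _ y _ hxy
    have h1 : B / Nat.gcd x B = B / Nat.gcd y B := congrArg Sigma.fst hxy
    have h2 : x / Nat.gcd x B = y / Nat.gcd y B := congrArg (fun p : (_ : ℕ) × ℕ => p.2) hxy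
    have hgg : Nat.gcd x B = Nat.gcd y B := by
      have e1 := Nat.div_div_self (Nat.gcd_dvd_right x B) hB
      have e2 := Nat.div_div_self (Nat.gcd_dvd_right y B) hB
      rw [← e1, ← e2, h1]
    rw [← hgg] at h2
    rw [← Nat.div_mul_cancel (Nat.gcd_dvd_left x B), h2, hgg,
      Nat.div_mul_cancel (Nat.gcd_dvd_left y B)]
  rw [← Finset.sum_image (f := fun p : (_ : ℕ) × ℕ => Psi v p.1 p.2) hinj]
  refine Finset.sum_le_sum_of_subset_of_nonneg ?_ (fun _ _ _ => Psi_nonneg _ _ _)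
  intro p hp
  obtain ⟨t, ht, rfl⟩ := Finset.mem_image.1 hp
  rw [Finset.mem_Ico] at ht
  have hgpos : 0 < Nat.gcd t B := Nat.gcd_pos_of_pos_left _ ht.1
  have hdt := Nat.gcd_dvd_left t B
  have hdB := Nat.gcd_dvd_right t B
  simp only [φ, Finset.mem_sigma, Finset.mem_erase, Finset.mem_filter, Finset.mem_range,
    Nat.mem_divisors]
  refine ⟨⟨?_, Nat.div_dvd_of_dvd hdB, hB⟩, ?_, Nat.coprime_div_gcd_div_gcd hgpos⟩
  · intro h1
    have : B = Nat.gcd t B := by
      conv_lhs => rw [← Nat.div_mul_cancel hdB, h1, one_mul]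
    have hBt : B ≤ t := this ▸ Nat.le_of_dvd ht.1 hdt
    omega
  · exact Nat.div_lt_div_of_lt_of_dvd hdB ht.2

/-- If the nonzero frequencies carry mass below one, two draws cover every residue class. -/
theorem cover (u : ι → ℕ) [Nonempty ι] {B : ℕ} (hB : B ≠ 0)
    (h : ∑ t ∈ Ico 1 B, Psi u B t < 1) (c : ℕ) : ∃ x y, (u x + u y) % B = c % B := by
  by_contra hno
  push Not at hno
  have hB' : range B = insert 0 (Ico 1 B) := by
    ext t
    simp only [Finset.mem_range, Finset.mem_insert, Finset.mem_Ico]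
    omega
  have key : ∑ t ∈ range B, ee B ((t : ℤ) * (-(c : ℤ))) * (S u B t * S u B t) = 0 := by
    have e : ∀ t : ℕ, ee B ((t : ℤ) * (-(c : ℤ))) * (S u B t * S u B t)
        = (∑ x, ∑ y, ee B ((t : ℤ) * ((u x : ℤ) + u y - c)))
            / ((Fintype.card ι : ℂ) * Fintype.card ι) := by
      intro t
      rw [S, div_mul_div_comm, Finset.sum_mul_sum, ← mul_div_assoc, Finset.mul_sum]
      congr 1
      refine Finset.sum_congr rfl fun x _ => ?_
      rw [Finset.mul_sum]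
      refine Finset.sum_congr rfl fun y _ => ?_
      rw [← ee_add, ← ee_add]
      congr 1
      ring
    simp only [e, ← Finset.sum_div]
    rw [Finset.sum_comm]
    simp only [Finset.sum_comm (s := range B), sum_ee hB]
    have : ∀ x y, ¬ (B : ℤ) ∣ ((u x : ℤ) + u y - c) := by
      intro x y hd
      apply hno x y
      have h2 : c ≡ u x + u y [MOD B] := Nat.modEq_iff_dvd.2 (by push_cast; exact hd)
      exact h2.symm
    simp [this]
  rw [hB', Finset.sum_insert (by simp)] at key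
  have h0 : ee B (((0 : ℕ) : ℤ) * (-(c : ℤ))) * (S u B 0 * S u B 0) = 1 := by
    have hc : (Fintype.card ι : ℂ) ≠ 0 := by exact_mod_cast Fintype.card_ne_zero
    simp [S, ee_zero, div_self hc]
  rw [h0] at key
  have h1 : (1 : ℝ) = ‖∑ t ∈ Ico 1 B, ee B ((t : ℤ) * (-(c : ℤ))) * (S u B t * S u B t)‖ := by
    have := eq_neg_of_add_eq_zero_right key
    rw [this, norm_neg, norm_one]
  have h2 : ‖∑ t ∈ Ico 1 B, ee B ((t : ℤ) * (-(c : ℤ))) * (S u B t * S u B t)‖
      ≤ ∑ t ∈ Ico 1 B, Psi u B t := by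
    refine (norm_sum_le _ _).trans (Finset.sum_le_sum fun t _ => ?_)
    rw [norm_mul, norm_ee, one_mul, norm_mul, Psi, Complex.normSq_eq_norm_sq, sq]
  linarith

/-- Collision probability of `v` modulo `q` (exact collisions for `q = 0`). -/
noncomputable def coll (v : ι → ℕ) (q : ℕ) : ℝ :=
  ((univ : Finset (ι × ι)).filter (fun p => v p.1 % q = v p.2 % q)).card
    / ((Fintype.card ι : ℝ) ^ 2)

lemma coll_nonneg (v : ι → ℕ) (q : ℕ) : 0 ≤ coll v q := by
  unfold coll
  positivity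

lemma coll_le_one (v : ι → ℕ) (q : ℕ) : coll v q ≤ 1 := by
  unfold coll
  apply div_le_one_of_le₀ _ (by positivity)
  rw [sq]
  have := Finset.card_filter_le (univ : Finset (ι × ι)) (fun p => v p.1 % q = v p.2 % q)
  rw [Finset.card_univ, Fintype.card_prod] at this
  exact_mod_cast this

/-- Averaging `Psi` over a multiplier `K + 1`, `K < K0`. -/
theorem sum_Psi_mul_le (v : ι → ℕ) {q a : ℕ} (hq : q ≠ 0) (ha : Nat.Coprime a q) (K0 : ℕ) :
    ∑ K : Fin K0, Psi (fun i => (K.val + 1) * v i) q a ≤ K0 * coll v q + q := by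
  classical
  have e : ∀ K : ℕ, Psi (fun i => (K + 1) * v i) q a
      = (∑ p : ι × ι, ee q ((K + 1 : ℕ) * ((a : ℤ) * ((v p.1 : ℤ) - v p.2))) /
          ((Fintype.card ι : ℂ) ^ 2)).re := by
    intro K
    rw [Psi, ← Complex.ofReal_re (Complex.normSq (S (fun i => (K + 1) * v i) q a))]
    congr 1
    rw [← Complex.mul_conj, S, map_div₀, map_sum, map_natCast, div_mul_div_comm,
      Finset.sum_mul_sum, ← sq, ← Finset.sum_div, Fintype.sum_prod_type]
    congr 1
    refine Finset.sum_congr rfl fun x _ => Finset.sum_congr rfl fun y _ => ?_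
    rw [conj_ee, ← ee_add]
    congr 1
    push_cast
    ring
  simp only [e, ← Complex.re_sum]
  refine (Complex.re_le_norm _).trans ?_
  rw [Finset.sum_comm]
  refine (norm_sum_le _ _).trans ?_
  have bound : ∀ p : ι × ι,
      ‖∑ K : Fin K0, ee q ((K.val + 1 : ℕ) * ((a : ℤ) * ((v p.1 : ℤ) - v p.2))) /
          ((Fintype.card ι : ℂ) ^ 2)‖
      ≤ ((if v p.1 % q = v p.2 % q then (K0 : ℝ) else 0) + q) /
          ((Fintype.card ι : ℝ) ^ 2) := by
    intro p
    rw [← Finset.sum_div, norm_div, norm_pow, Complex.norm_natCast]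
    gcongr
    split_ifs with h
    · refine (norm_sum_le _ _).trans ?_
      simp [norm_ee]
    · rw [zero_add]
      set n := (a : ℤ) * ((v p.1 : ℤ) - v p.2)
      have hn : ee q n ≠ 1 := by
        rw [Ne, ee_eq_one_iff hq]
        intro hd
        apply h
        have hco : IsCoprime (q : ℤ) (a : ℤ) := Nat.isCoprime_iff_coprime.2 ha.symm
        have h2 : (q : ℤ) ∣ (v p.1 : ℤ) - v p.2 := hco.dvd_of_dvd_mul_left hd
        exact (Nat.modEq_iff_dvd.2 h2).symm
      have hs : ∑ K : Fin K0, ee q ((K.val + 1 : ℕ) * n)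
          = ee q n * ∑ t ∈ range K0, ee q n ^ t := by
        rw [Finset.mul_sum, Fin.sum_univ_eq_sum_range (fun t => ee q ((t + 1 : ℕ) * n))]
        refine Finset.sum_congr rfl fun t _ => ?_
        rw [ee_nsmul, pow_succ, mul_comm]
      rw [hs, norm_mul, norm_ee, one_mul]
      apply norm_geom_le hq _ hn _ (norm_ee q n)
      rw [← ee_nsmul]
      exact (ee_eq_one_iff hq _).2 ⟨n, rfl⟩
  refine (Finset.sum_le_sum fun p _ => bound p).trans ?_
  rw [← Finset.sum_div, Finset.sum_add_distrib, ← Finset.sum_filter, Finset.sum_const,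
    Finset.sum_const, nsmul_eq_mul, nsmul_eq_mul, Finset.card_univ, Fintype.card_prod, add_div,
    coll]
  rcases Nat.eq_zero_or_pos (Fintype.card ι) with h0 | h0
  · simp [h0]
  · push_cast
    have : (Fintype.card ι : ℝ) ≠ 0 := by exact_mod_cast h0.ne'
    apply le_of_eq
    field_simp

end Vale.Agent.P012
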