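import Vale.Agent.P012.Distinct

/-!
# The Erdős lower bound `N(b-1,b) ≫ log log b`
-/

namespace Vale.Agent.P012

open Finset

/-- A sum of `k` unit fractions below `p/q` misses it by at least `(2Kq)^(-2^k)`. -/
lemma gap_aux (K : ℕ) : ∀ (k : ℕ), k ≤ K → ∀ (m : Multiset ℕ), m.card = k → (∀ n ∈ m, 1 ≤ n) →
    ∀ p q : ℕ, 0 < q → rsum m < (p : ℚ) / q →
      1 / ((((2 * K + 1) * q) ^ (2 ^ k) : ℕ) : ℚ) ≤ (p : ℚ) / q - rsum m := by
  intro k
  induction k with
  | zero =>
    intro _ m hm _ p q hq hlt
    obtain rfl : m = 0 := Multiset.card_eq_zero.1 hm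
    have hp : 1 ≤ p := by
      rcases Nat.eq_zero_or_pos p with rfl | h
      · simp [rsum] at hlt
      · exact h
    have hqq : (0 : ℚ) < q := by exact_mod_cast hq
    simp only [rsum, Multiset.map_zero, Multiset.sum_zero, sub_zero, pow_zero, pow_one]
    push_cast
    calc 1 / ((2 * (K : ℚ) + 1) * q) ≤ 1 / (q : ℚ) := by
          apply one_div_le_one_div_of_le hqq
          have : (0 : ℚ) ≤ 2 * K := by positivity
          nlinarith
      _ ≤ (p : ℚ) / q := by
          gcongr
          exact_mod_cast hp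
  | succ k ih =>
    intro hkK m hm hpos p q hq hlt
    have hp : 1 ≤ p := by
      rcases Nat.eq_zero_or_pos p with rfl | h
      · have := rsum_nonneg m
        simp at hlt
        linarith
      · exact h
    have hqq : (0 : ℚ) < q := by exact_mod_cast hq
    set Q : ℕ := ((2 * K + 1) * q) with hQ
    have hQ1 : 1 ≤ Q := Nat.one_le_iff_ne_zero.2 (Nat.mul_ne_zero (by omega) (by omega))
    by_cases hhalf : (p : ℚ) / q / 2 ≤ (p : ℚ) / q - rsum m
    · refine le_trans ?_ hhalf
      have h1 : (2 * q : ℕ) ≤ Q ^ (2 ^ (k + 1)) := by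
        refine le_trans ?_ (Nat.le_self_pow (by positivity) Q)
        rw [hQ]
        exact Nat.mul_le_mul_right q (by omega)
      have h1' : (2 * q : ℚ) ≤ ((Q ^ (2 ^ (k + 1)) : ℕ) : ℚ) := by exact_mod_cast h1
      calc (1 : ℚ) / _ ≤ 1 / (2 * q) := one_div_le_one_div_of_le (by positivity) h1'
        _ ≤ (p : ℚ) / q / 2 := by
          rw [div_div, mul_comm (q : ℚ) 2]
          gcongr
          exact_mod_cast hp
    push Not at hhalf
    classical
    have hne : m.toFinset.Nonempty := by
      rw [Multiset.toFinset_nonempty]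
      intro h
      simp [h] at hm
    set n := m.toFinset.min' hne with hn
    have hnm : n ∈ m := Multiset.mem_toFinset.1 (Finset.min'_mem _ hne)
    have hn1 : 1 ≤ n := hpos n hnm
    obtain ⟨t, ht⟩ := Multiset.exists_cons_of_mem hnm
    have hsum_le : rsum m ≤ ((k : ℚ) + 1) / n := by
      have : ∀ i ∈ m.map (fun i : ℕ => (1 : ℚ) / i), i ≤ (1 : ℚ) / n := by
        intro i hi
        obtain ⟨j, hj, rfl⟩ := Multiset.mem_map.1 hi
        apply one_div_le_one_div_of_le (by exact_mod_cast hn1)
        exact_mod_cast Finset.min'_le _ _ (Multiset.mem_toFinset.2 hj)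
      have h2 := Multiset.sum_le_card_nsmul _ _ this
      rw [Multiset.card_map, hm] at h2
      simpa [rsum, nsmul_eq_mul, div_eq_mul_inv] using h2
    have hnq : n ≤ 2 * K * q := by
      have hlow : (p : ℚ) / q / 2 < ((k : ℚ) + 1) / n := by linarith
      have hnn : (0 : ℚ) < n := by exact_mod_cast hn1
      rw [div_div, div_lt_div_iff₀ (by positivity) hnn] at hlow
      have hnat : p * n < (k + 1) * (q * 2) := by exact_mod_cast hlow
      have h3 : n ≤ p * n := Nat.le_mul_of_pos_left n hp
      have h4 : (k + 1) * (q * 2) ≤ K * (q * 2) := Nat.mul_le_mul_right _ hkK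
      nlinarith
    rw [ht, rsum_cons] at hlt
    have hrt := rsum_nonneg t
    have hnn : (0 : ℚ) < n := by exact_mod_cast hn1
    have hsub : q ≤ p * n := by
      have : (1 : ℚ) / n < (p : ℚ) / q := by linarith
      rw [div_lt_div_iff₀ hnn hqq] at this
      have : 1 * q < p * n := by exact_mod_cast this
      omega
    have heq : (p : ℚ) / q - 1 / n = ((p * n - q : ℕ) : ℚ) / ((q * n : ℕ) : ℚ) := by
      rw [Nat.cast_sub hsub]
      push_cast
      field_simp
    have hcard : t.card = k := by
      rw [ht, Multiset.card_cons] at hm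
      omega
    have hres := ih (by omega) t hcard (fun i hi => hpos i (ht ▸ Multiset.mem_cons_of_mem hi))
      (p * n - q) (q * n) (Nat.mul_pos hq hn1) (by rw [← heq]; linarith)
    rw [← heq] at hres
    have hgoal : (p : ℚ) / q - rsum m = (p : ℚ) / q - 1 / n - rsum t := by
      rw [ht, rsum_cons]; ring
    rw [hgoal]
    refine le_trans ?_ hres
    apply one_div_le_one_div_of_le
    · have : 0 < ((2 * K + 1) * (q * n)) ^ 2 ^ k :=
        pow_pos (Nat.mul_pos (by omega) (Nat.mul_pos hq hn1)) _
      exact_mod_cast this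
    · have h5 : (2 * K + 1) * (q * n) ≤ Q ^ 2 := by
        rw [hQ, sq]
        calc (2 * K + 1) * (q * n) ≤ (2 * K + 1) * (q * ((2 * K + 1) * q)) := by
              gcongr
              exact hnq.trans (Nat.mul_le_mul_right q (by omega))
          _ = _ := by ring
      have h6 := Nat.pow_le_pow_left h5 (2 ^ k)
      rw [← pow_mul, ← pow_succ'] at h6
      exact_mod_cast h6

/-- `N(b-1, b) ≥ (1/2) log log b` for large `b`. -/
theorem lower_bound : ∃ b₀ : ℕ, ∀ b : ℕ, b₀ ≤ b →
    ∀ s : Finset ℕ, (∀ n ∈ s, 2 ≤ n) → (∑ n ∈ s, (1 : ℚ) / n) = ((b - 1 : ℕ) : ℚ) / b →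
      (1 / 2) * Real.log (Real.log b) ≤ (s.card : ℝ) := by
  refine ⟨3, fun b hb s hs hsum => ?_⟩
  set k := s.card with hk
  have hbq : (0 : ℚ) < b := by exact_mod_cast (show 0 < b by omega)
  have hval : rsum s.val = 1 - 1 / (b : ℚ) := by
    rw [rsum_val, hsum, Nat.cast_sub (by omega)]
    field_simp
    simp
  have h := gap_aux k k le_rfl s.val rfl (fun n hn => le_trans (by norm_num) (hs n hn)) 1 1
    one_pos (by rw [hval]; simp; omega)
  rw [hval] at h
  simp only [Nat.cast_one, div_one, mul_one] at h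
  rw [show (1 : ℚ) - (1 - 1 / b) = 1 / b by ring] at h
  set N := (2 * k + 1) ^ 2 ^ k with hN
  have hbN : b ≤ N := by
    have hNpos : (0 : ℚ) < (N : ℚ) := by positivity
    have := (one_div_le_one_div hNpos hbq).1 h
    exact_mod_cast this
  have hk1 : 1 ≤ k := by
    by_contra hc
    have : k = 0 := by omega
    rw [this] at hN
    simp at hN
    omega
  have h2k : 2 * k + 1 ≤ 2 ^ (2 * k) := by
    have := Nat.lt_two_pow_self (n := 2 * k)
    omega
  have hlogb : Real.log b ≤ (2 * k * 2 ^ k : ℕ) := by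
    have h1 : b ≤ 2 ^ (2 * k * 2 ^ k) := by
      rw [pow_mul]
      exact hbN.trans (Nat.pow_le_pow_left h2k _)
    calc Real.log b ≤ Real.log ((2 : ℝ) ^ (2 * k * 2 ^ k)) := by
          apply Real.log_le_log (by exact_mod_cast (show 0 < b by omega))
          exact_mod_cast h1
      _ ≤ (2 * k * 2 ^ k : ℕ) := by
          rw [Real.log_pow]
          have h2 : Real.log 2 ≤ 1 := by
            have := Real.log_two_lt_d9
            linarith
          have h0 : (0 : ℝ) ≤ ((2 * k * 2 ^ k : ℕ) : ℝ) := Nat.cast_nonneg _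
          nlinarith
  have hlb1 : 1 < Real.log b := by
    have h3 : (3 : ℝ) ≤ b := by exact_mod_cast hb
    have : Real.exp 1 < b := by
      have := Real.exp_one_lt_d9
      linarith
    calc (1 : ℝ) = Real.log (Real.exp 1) := (Real.log_exp 1).symm
      _ < Real.log b := Real.log_lt_log (Real.exp_pos _) this
  have h4k : 2 * k * 2 ^ k ≤ 4 ^ k := by
    have h5 : 2 * k ≤ 2 ^ k := by
      have := Nat.lt_two_pow_self (n := k - 1)
      have h6 : 2 ^ k = 2 ^ (k - 1) * 2 := by
        rw [← pow_succ, Nat.sub_add_cancel hk1]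
      omega
    calc 2 * k * 2 ^ k ≤ 2 ^ k * 2 ^ k := Nat.mul_le_mul_right _ h5
      _ = 4 ^ k := by rw [← mul_pow]; norm_num
  have hll : Real.log (Real.log b) ≤ k * Real.log 4 := by
    calc Real.log (Real.log b) ≤ Real.log ((4 : ℝ) ^ k) := by
          apply Real.log_le_log (by linarith)
          refine hlogb.trans ?_
          exact_mod_cast h4k
      _ = _ := Real.log_pow 4 k
  have hlog4 : Real.log 4 ≤ 2 := by
    rw [show (4 : ℝ) = 2 ^ 2 by norm_num, Real.log_pow]
    have := Real.log_two_lt_d9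
    norm_num
    linarith
  have hk0 : (0 : ℝ) ≤ k := Nat.cast_nonneg _
  nlinarith

end Vale.Agent.P012
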