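import Mathlib

/-!
# Parameters
-/

namespace Vale.Agent.P012

/-- Bit length of the prime population. -/
def pr (lam : ℕ) : ℕ := 32 * lam

/-- Number of doubling steps. -/
def pJ (lam : ℕ) : ℕ := Nat.clog 2 (pr lam)

/-- Number of terms in one main slot. -/
def pk (lam : ℕ) : ℕ := 2 ^ pJ lam

/-- Basic scale. -/
def pE (lam : ℕ) : ℕ := 2 ^ (16 * lam)

/-- Main scale. -/
def pS (lam : ℕ) : ℕ := pk lam * pE lam

/-- Logarithm of the threshold below which moduli are small. -/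
def pQ (lam : ℕ) : ℕ := 4096 * pE lam

lemma pr_le_pk (lam : ℕ) : pr lam ≤ pk lam := Nat.le_pow_clog one_lt_two _

lemma pk_pos (lam : ℕ) : 1 ≤ pk lam := Nat.one_le_two_pow

lemma pE_pos (lam : ℕ) : 1 ≤ pE lam := Nat.one_le_two_pow

lemma pk_le (lam : ℕ) (h : 1 ≤ lam) : pk lam ≤ 64 * lam := by
  have h1 : 1 < pr lam := by unfold pr; omega
  have h2 : 2 ^ (Nat.clog 2 (pr lam)).pred < pr lam := Nat.pow_pred_clog_lt_self one_lt_two h1
  have hpos : 0 < Nat.clog 2 (pr lam) := Nat.clog_pos one_lt_two h1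
  unfold pk pJ
  have e : 2 ^ Nat.clog 2 (pr lam) = 2 ^ (Nat.clog 2 (pr lam)).pred * 2 := by
    rw [← pow_succ, Nat.pred_eq_sub_one, Nat.sub_add_cancel hpos]
  unfold pr at *
  omega

lemma pE_le_pS (lam : ℕ) : pE lam ≤ pS lam := Nat.le_mul_of_pos_left _ (pk_pos lam)

lemma pk_le_pS (lam : ℕ) : pk lam ≤ pS lam := Nat.le_mul_of_pos_right _ (pE_pos lam)

/-- Numerical facts valid for large `lam`. -/
structure Large (lam : ℕ) : Prop where
  one_le : 1 ≤ lam
  tauSmall : (4 * pS lam + 1) ^ (2 ^ (4 * lam)) ≤ 2 ^ pE lam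
  primes : 2 * (8192 * pE lam + pE lam) * pr lam + (pr lam + 1) ≤ 2 ^ pr lam
  big : 2 ^ 40 ≤ pE lam

end Vale.Agent.P012
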