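import Vale.Agent.P012.Divisors

/-!
# Random multipliers: universal pools and small-modulus slots
-/

namespace Vale.Agent.P012

open Finset

variable {ι κ : Type} [Fintype ι] [Fintype κ]

/-- One draw from each of `m` slots with multipliers `K s + 1`. -/
def pool (v : ι → ℕ) {m K0 : ℕ} (K : Fin m → Fin K0) (f : Fin m → ι) : ℕ :=
  ∑ s, ((K s).val + 1) * v (f s)

lemma sum_prod_Psi_le (v : ι → ℕ) {q a : ℕ} (hq : q ≠ 0) (ha : Nat.Coprime a q) (m K0 : ℕ) :
    ∑ K : Fin m → Fin K0, Psi (pool v K) q a ≤ ((K0 : ℝ) * coll v q + q) ^ m := by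
  classical
  have e : ∀ K : Fin m → Fin K0,
      Psi (pool v K) q a = ∏ s, Psi (fun i => ((K s).val + 1) * v i) q a :=
    fun K => Psi_pi (fun s i => ((K s).val + 1) * v i) q a
  simp only [e]
  have := Fintype.prod_sum (fun (_ : Fin m) (k : Fin K0) => Psi (fun i => (k.val + 1) * v i) q a)
  rw [← this, Finset.prod_const, Finset.card_univ, Fintype.card_fin]
  exact pow_le_pow_left₀ (Finset.sum_nonneg fun _ _ => Psi_nonneg _ _ _)
    (sum_Psi_mul_le v hq ha K0) m

lemma card_filter_coprime_le (q : ℕ) : ((range q).filter (Nat.Coprime · q)).card ≤ q :=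
  (Finset.card_filter_le _ _).trans (by simp)

lemma sum_W_pool_le (v : ι → ℕ) {q : ℕ} (hq : q ≠ 0) (m : ℕ) {K0 : ℕ} (hK : 0 < K0) :
    ∑ K : Fin m → Fin K0, W (pool v K) q
      ≤ (K0 : ℝ) ^ m * (q * (coll v q + q / K0) ^ m) := by
  unfold W
  rw [Finset.sum_comm]
  refine (Finset.sum_le_sum fun a ha => sum_prod_Psi_le v hq (Finset.mem_filter.1 ha).2 m K0).trans ?_
  rw [Finset.sum_const, nsmul_eq_mul]
  have hKR : (0 : ℝ) < K0 := by exact_mod_cast hK
  have e : (K0 : ℝ) * coll v q + q = K0 * (coll v q + q / K0) := by field_simp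
  rw [e, mul_pow, ← mul_assoc, ← mul_assoc, mul_comm ((K0 : ℝ) ^ m) (q : ℝ)]
  have hc : (((range q).filter (Nat.Coprime · q)).card : ℝ) ≤ q := by
    exact_mod_cast card_filter_coprime_le q
  have := coll_nonneg v q
  gcongr

/-- Existence of multipliers which are good for a whole set of moduli at once. -/
theorem exists_pool (v : ι → ℕ) (m : ℕ) {K0 : ℕ} (hK : 0 < K0) (T : Finset ℕ)
    (hT : ∀ q ∈ T, q ≠ 0) :
    ∃ K : Fin m → Fin K0,
      ∑ q ∈ T, W (pool v K) q ≤ ∑ q ∈ T, (q : ℝ) * (coll v q + q / K0) ^ m := by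
  classical
  haveI : Nonempty (Fin K0) := ⟨⟨0, hK⟩⟩
  obtain ⟨K, -, hK'⟩ := Finset.exists_le_of_sum_le (s := (univ : Finset (Fin m → Fin K0)))
    Finset.univ_nonempty
    (f := fun K => ∑ q ∈ T, W (pool v K) q)
    (g := fun _ => ∑ q ∈ T, (q : ℝ) * (coll v q + q / K0) ^ m) (by
      rw [Finset.sum_comm, Finset.sum_const, Finset.card_univ, nsmul_eq_mul, Fintype.card_pi]
      simp only [Finset.prod_const, Finset.card_univ, Fintype.card_fin, Nat.cast_pow]
      rw [Finset.mul_sum]
      exact Finset.sum_le_sum fun q hq => sum_W_pool_le v (hT q hq) m hK)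
  exact ⟨K, hK'⟩

/-- Two groups of slots: either one may be used for each modulus. -/
theorem exists_pool_pair (vA : ι → ℕ) (vB : κ → ℕ) (m : ℕ) {K0 : ℕ} (hK : 0 < K0) (T : Finset ℕ)
    (hT : ∀ q ∈ T, q ≠ 0) :
    ∃ KA KB : Fin m → Fin K0,
      ∑ q ∈ T, W (fun x : (Fin m → ι) × (Fin m → κ) => pool vA KA x.1 + pool vB KB x.2) q
        ≤ ∑ q ∈ T, (q : ℝ) * min ((coll vA q + q / K0) ^ m) ((coll vB q + q / K0) ^ m) := by
  classical
  haveI : Nonempty (Fin K0) := ⟨⟨0, hK⟩⟩
  have hle : ∀ q ∈ T, ∀ (KA KB : Fin m → Fin K0),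
      W (fun x : (Fin m → ι) × (Fin m → κ) => pool vA KA x.1 + pool vB KB x.2) q
        ≤ W (pool vA KA) q ∧
      W (fun x : (Fin m → ι) × (Fin m → κ) => pool vA KA x.1 + pool vB KB x.2) q
        ≤ W (pool vB KB) q := by
    intro q _ KA KB
    unfold W
    simp only [Psi_pair]
    exact ⟨Finset.sum_le_sum fun a _ => mul_le_of_le_one_right (Psi_nonneg _ _ _) (Psi_le_one _ _ _),
      Finset.sum_le_sum fun a _ => mul_le_of_le_one_left (Psi_nonneg _ _ _) (Psi_le_one _ _ _)⟩
  obtain ⟨K, -, hK'⟩ := Finset.exists_le_of_sum_le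
    (s := (univ : Finset ((Fin m → Fin K0) × (Fin m → Fin K0)))) Finset.univ_nonempty
    (f := fun K => ∑ q ∈ T,
      W (fun x : (Fin m → ι) × (Fin m → κ) => pool vA K.1 x.1 + pool vB K.2 x.2) q)
    (g := fun _ => ∑ q ∈ T,
      (q : ℝ) * min ((coll vA q + q / K0) ^ m) ((coll vB q + q / K0) ^ m)) (by
      rw [Finset.sum_comm, Finset.sum_const, Finset.card_univ, nsmul_eq_mul, Fintype.card_prod,
        Fintype.card_pi]
      simp only [Finset.prod_const, Finset.card_univ, Fintype.card_fin, Nat.cast_mul, Nat.cast_pow]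
      rw [Finset.mul_sum]
      refine Finset.sum_le_sum fun q hq => ?_
      have hq0 := hT q hq
      rcases le_total ((coll vA q + q / K0) ^ m) ((coll vB q + q / K0) ^ m) with h | h
      · rw [min_eq_left h]
        calc _ ≤ ∑ K : (Fin m → Fin K0) × (Fin m → Fin K0), W (pool vA K.1) q :=
              Finset.sum_le_sum fun K _ => (hle q hq K.1 K.2).1
          _ = ∑ KA : Fin m → Fin K0, (K0 : ℝ) ^ m * W (pool vA KA) q := by
              rw [Fintype.sum_prod_type]
              simp [Fintype.card_pi]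
          _ ≤ (K0 : ℝ) ^ m * ((K0 : ℝ) ^ m * ((q : ℝ) * (coll vA q + q / K0) ^ m)) := by
              rw [← Finset.mul_sum]
              exact mul_le_mul_of_nonneg_left (sum_W_pool_le vA hq0 m hK) (by positivity)
          _ = _ := by ring
      · rw [min_eq_right h]
        calc _ ≤ ∑ K : (Fin m → Fin K0) × (Fin m → Fin K0), W (pool vB K.2) q :=
              Finset.sum_le_sum fun K _ => (hle q hq K.1 K.2).2
          _ = ∑ KB : Fin m → Fin K0, (K0 : ℝ) ^ m * W (pool vB KB) q := by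
              rw [Fintype.sum_prod_type_right]
              simp [Fintype.card_pi]
          _ ≤ (K0 : ℝ) ^ m * ((K0 : ℝ) ^ m * ((q : ℝ) * (coll vB q + q / K0) ^ m)) := by
              rw [← Finset.mul_sum]
              exact mul_le_mul_of_nonneg_left (sum_W_pool_le vB hq0 m hK) (by positivity)
          _ = _ := by ring)
  exact ⟨K.1, K.2, hK'⟩

/-- The product of a subset of a finite set of primes. -/
def subProd (A : Finset ℕ) (T : {T // T ∈ A.powerset}) : ℕ := ∏ p ∈ T.1, p

lemma prime_dvd_subProd_iff {A : Finset ℕ} (hA : ∀ p ∈ A, p.Prime) (T : {T // T ∈ A.powerset})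
    {p : ℕ} (hp : p ∈ A) : p ∣ subProd A T ↔ p ∈ T.1 := by
  constructor
  · intro h
    obtain ⟨x, hx, hpx⟩ := ((hA p hp).prime.dvd_finsetProd_iff _).1 h
    rw [(Nat.prime_dvd_prime_iff_eq (hA p hp) (hA x (Finset.mem_powerset.1 T.2 hx))).1 hpx]
    exact hx
  · exact fun h => Finset.dvd_prod_of_mem _ h

/-- If colliding pairs are determined by the second member and the first outside `X`. -/
lemma coll_le_of_inj {A X : Finset ℕ} (hX : X ⊆ A) {q : ℕ}
    (h : ∀ S S' T : {T // T ∈ A.powerset}, S.1 \ X = S'.1 \ X →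
      subProd A S % q = subProd A T % q → subProd A S' % q = subProd A T % q → S = S') :
    coll (subProd A) q ≤ 1 / (2 : ℝ) ^ X.card := by
  classical
  unfold coll
  have hcard : ((univ : Finset ({T // T ∈ A.powerset} × {T // T ∈ A.powerset})).filter
      (fun p => subProd A p.1 % q = subProd A p.2 % q)).card
      ≤ 2 ^ A.card * 2 ^ (A.card - X.card) := by
    refine (Finset.card_le_card_of_injOn (t := A.powerset ×ˢ (A \ X).powerset)
      (fun p => (p.2.1, p.1.1 \ X)) ?_ ?_).trans ?_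
    · intro p _
      simp only [Finset.coe_product, Set.mem_prod, Finset.mem_coe]
      exact ⟨p.2.2, Finset.mem_powerset.2
        (Finset.sdiff_subset_sdiff (Finset.mem_powerset.1 p.1.2) le_rfl)⟩
    · intro p hp p' hp' hpp
      simp only [Finset.coe_filter, Set.mem_ofPred_eq, Finset.mem_univ, true_and] at hp hp'
      have h2 : p.2 = p'.2 := Subtype.ext (congrArg Prod.fst hpp)
      refine Prod.ext (h p.1 p'.1 p.2 (congrArg Prod.snd hpp) hp ?_) h2
      rw [h2]
      exact hp'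
    · rw [Finset.card_product, Finset.card_powerset, Finset.card_powerset,
        Finset.card_sdiff_of_subset hX]
  have hXA := Finset.card_le_card hX
  have hN : Fintype.card {T // T ∈ A.powerset} = 2 ^ A.card := by simp
  rw [hN, div_le_div_iff₀ (by positivity) (by positivity), one_mul]
  refine le_trans (mul_le_mul_of_nonneg_right (Nat.cast_le.2 hcard) (by positivity)) ?_
  push_cast
  rw [mul_assoc, ← pow_add, Nat.sub_add_cancel hXA, ← sq]

lemma coll_subProd_le_half {A : Finset ℕ} (hA : ∀ p ∈ A, p.Prime) (h2 : 2 ∈ A) {q : ℕ}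
    (hq : 2 ≤ q) : coll (subProd A) q ≤ 1 / 2 := by
  classical
  by_cases h : ∃ p ∈ A, p ∣ q
  · obtain ⟨p, hp, hpq⟩ := h
    have := coll_le_of_inj (A := A) (X := {p}) (q := q) (by simpa using hp) ?_
    · simpa using this
    intro S S' T hS h1 h1'
    have hiff : ∀ U : {T // T ∈ A.powerset}, subProd A U % q = subProd A T % q →
        (p ∈ U.1 ↔ p ∈ T.1) := by
      intro U hU
      rw [← prime_dvd_subProd_iff hA U hp, ← prime_dvd_subProd_iff hA T hp]
      exact Nat.ModEq.dvd_iff hU hpq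
    apply Subtype.ext
    ext x
    by_cases hx : x = p
    · subst hx
      rw [hiff S h1, hiff S' h1']
    · have := congrArg (fun U : Finset ℕ => x ∈ U) hS
      simpa [hx] using this
  · push Not at h
    have := coll_le_of_inj (A := A) (X := {2}) (q := q) (by simpa using h2) ?_
    · simpa using this
    intro S S' T hS h1 h1'
    by_contra hne
    -- exactly one of `S`, `S'` contains `2`
    have key : ∀ U U' : {T // T ∈ A.powerset}, 2 ∈ U.1 → U.1 \ {2} = U'.1 \ {2} → 2 ∉ U'.1 →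
        subProd A U % q ≠ subProd A U' % q := by
      intro U U' hU hUU hU' heq
      have e : subProd A U = 2 * subProd A U' := by
        unfold subProd
        rw [← Finset.mul_prod_erase _ _ hU]
        congr 1
        rw [Finset.erase_eq, hUU, ← Finset.erase_eq, Finset.erase_eq_of_notMem hU']
      have hle : subProd A U' ≤ subProd A U := by omega
      have hd : q ∣ subProd A U - subProd A U' := (Nat.modEq_iff_dvd' hle).1 heq.symm
      rw [e, two_mul, Nat.add_sub_cancel] at hd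
      have hco : Nat.Coprime q (subProd A U') := Nat.Coprime.prod_right fun x hx => by
        have hxA := Finset.mem_powerset.1 U'.2 hx
        exact ((hA x hxA).coprime_iff_not_dvd.2 (h x hxA)).symm
      have := Nat.Coprime.eq_one_of_dvd hco hd
      omega
    by_cases hS2 : 2 ∈ S.1
    · by_cases hS2' : 2 ∈ S'.1
      · apply hne
        apply Subtype.ext
        ext x
        by_cases hx : x = 2
        · simp [hx, hS2, hS2']
        · have := congrArg (fun U : Finset ℕ => x ∈ U) hS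
          simpa [hx] using this
      · exact key S S' hS2 hS hS2' (h1.trans h1'.symm)
    · by_cases hS2' : 2 ∈ S'.1
      · exact key S' S hS2' hS.symm hS2 (h1'.trans h1.symm)
      · apply hne
        apply Subtype.ext
        rw [← Finset.erase_eq_of_notMem hS2, ← Finset.erase_eq_of_notMem hS2', Finset.erase_eq,
          Finset.erase_eq]
        exact hS

lemma coll_subProd_le {A : Finset ℕ} {r l : ℕ} (hA : ∀ p ∈ A, p.Prime ∧ p < 2 ^ r) (hl : l ≤ A.card)
    {q q' : ℕ} (hqq : q' ∣ q) (hco : ∀ p ∈ A, Nat.Coprime p q') (hbig : 2 ^ (r * l) ≤ q') :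
    coll (subProd A) q ≤ 1 / (2 : ℝ) ^ l := by
  classical
  obtain ⟨X, hX, hXc⟩ := Finset.exists_subset_card_eq hl
  rw [← hXc]
  refine coll_le_of_inj hX ?_
  intro S S' T hS h1 h1'
  have hm : subProd A S ≡ subProd A S' [MOD q'] := Nat.ModEq.of_dvd hqq (h1.trans h1'.symm)
  have dec : ∀ U : {T // T ∈ A.powerset},
      subProd A U = (∏ p ∈ U.1 \ X, p) * ∏ p ∈ U.1 ∩ X, p := by
    intro U
    unfold subProd
    rw [mul_comm, ← Finset.prod_union (Finset.disjoint_sdiff_inter U.1 X).symm, Finset.union_comm,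
      Finset.sdiff_union_inter]
  rw [dec S, dec S', ← hS] at hm
  have hcoo : Nat.Coprime q' (∏ p ∈ S.1 \ X, p) := Nat.Coprime.prod_right fun x hx =>
    (hco x (Finset.mem_powerset.1 S.2 (Finset.mem_sdiff.1 hx).1)).symm
  have hm2 := Nat.ModEq.cancel_left_of_coprime (c := ∏ p ∈ S.1 \ X, p) hcoo hm
  have hlt : ∀ U : {T // T ∈ A.powerset}, U.1 ∩ X = ∅ ∨ (∏ p ∈ U.1 ∩ X, p) < q' := by
    intro U
    rcases (U.1 ∩ X).eq_empty_or_nonempty with h | h
    · exact Or.inl h
    right
    have hsub : U.1 ∩ X ⊆ A := Finset.inter_subset_right.trans hX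
    calc (∏ p ∈ U.1 ∩ X, p) < ∏ _p ∈ U.1 ∩ X, 2 ^ r :=
          Finset.prod_lt_prod_of_nonempty (fun p hp => (hA p (hsub hp)).1.pos)
            (fun p hp => (hA p (hsub hp)).2) h
      _ ≤ 2 ^ (r * l) := by
          rw [Finset.prod_const, ← pow_mul]
          exact Nat.pow_le_pow_right (by norm_num)
            (Nat.mul_le_mul_left r (hXc ▸ Finset.card_le_card Finset.inter_subset_right))
      _ ≤ q' := hbig
  have hinter : S.1 ∩ X = S'.1 ∩ X := by
    have hpf : ∀ U : {T // T ∈ A.powerset},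
        Nat.primeFactors (∏ p ∈ U.1 ∩ X, p) = U.1 ∩ X := fun U =>
      Nat.primeFactors_prod fun p hp => (hA p (hX (Finset.mem_inter.1 hp).2)).1
    by_cases hq1 : q' ≤ 1
    · rcases hlt S with hs | hs
      · rcases hlt S' with hs' | hs'
        · rw [hs, hs']
        · have : 0 < ∏ p ∈ S'.1 ∩ X, p :=
            Finset.prod_pos fun p hp => (hA p (hX (Finset.mem_inter.1 hp).2)).1.pos
          omega
      · have : 0 < ∏ p ∈ S.1 ∩ X, p :=
          Finset.prod_pos fun p hp => (hA p (hX (Finset.mem_inter.1 hp).2)).1.pos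
        omega
    have hlt' : ∀ U : {T // T ∈ A.powerset}, (∏ p ∈ U.1 ∩ X, p) < q' := by
      intro U
      rcases hlt U with h | h
      · rw [h, Finset.prod_empty]; omega
      · exact h
    rw [← hpf S, ← hpf S', Nat.ModEq.eq_of_lt_of_lt hm2 (hlt' S) (hlt' S')]
  apply Subtype.ext
  rw [← Finset.sdiff_union_inter S.1 X, ← Finset.sdiff_union_inter S'.1 X, hS, hinter]

/-- One of two disjoint prime sets avoids at least the square root of `q`. -/
lemma exists_strip (A B : Finset ℕ) (hA : ∀ p ∈ A, p.Prime) (hB : ∀ p ∈ B, p.Prime)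
    (hAB : Disjoint A B) {q : ℕ} (hq : q ≠ 0) :
    (∃ q', q' ∣ q ∧ (∀ p ∈ A, Nat.Coprime p q') ∧ q ≤ q' ^ 2) ∨
    (∃ q', q' ∣ q ∧ (∀ p ∈ B, Nat.Coprime p q') ∧ q ≤ q' ^ 2) := by
  classical
  let f : Finset ℕ → ℕ := fun C => ∏ p ∈ q.primeFactors \ C, p ^ q.factorization p
  have hself : ∏ p ∈ q.primeFactors, p ^ q.factorization p = q :=
    Nat.prod_factorization_pow_eq_self hq
  have hdvd : ∀ C, f C ∣ q := fun C => by
    conv_rhs => rw [← hself]
    exact Finset.prod_dvd_prod_of_subset _ _ _ Finset.sdiff_subset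
  have hco : ∀ C : Finset ℕ, (∀ p ∈ C, p.Prime) → ∀ p ∈ C, Nat.Coprime p (f C) := by
    intro C hC p hp
    refine Nat.Coprime.prod_right fun x hx => Nat.Coprime.pow_right _ ?_
    rw [Finset.mem_sdiff] at hx
    exact (Nat.coprime_primes (hC p hp) (Nat.prime_of_mem_primeFactors hx.1)).2
      (fun h => hx.2 (h ▸ hp))
  have hmul : q ≤ f A * f B := by
    conv_lhs => rw [← hself]
    rw [show f A * f B = (∏ p ∈ (q.primeFactors \ A) ∪ (q.primeFactors \ B), p ^ q.factorization p)
      * ∏ p ∈ (q.primeFactors \ A) ∩ (q.primeFactors \ B), p ^ q.factorization p from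
        (Finset.prod_union_inter).symm]
    have hu : q.primeFactors \ A ∪ q.primeFactors \ B = q.primeFactors := by
      ext x
      simp only [Finset.mem_union, Finset.mem_sdiff]
      constructor
      · rintro (h | h) <;> exact h.1
      · intro h
        by_cases hxA : x ∈ A
        · exact Or.inr ⟨h, Finset.disjoint_left.1 hAB hxA⟩
        · exact Or.inl ⟨h, hxA⟩
    rw [hu]
    refine Nat.le_mul_of_pos_right _ (Finset.prod_pos fun p hp => pow_pos ?_ _)
    exact (Nat.prime_of_mem_primeFactors (Finset.mem_sdiff.1 (Finset.mem_inter.1 hp).1).1).pos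
  rcases le_total (f A) (f B) with h | h
  · exact Or.inr ⟨f B, hdvd B, hco B hB, hmul.trans (by rw [sq]; exact Nat.mul_le_mul_right _ h)⟩
  · exact Or.inl ⟨f A, hdvd A, hco A hA, hmul.trans (by rw [sq]; exact Nat.mul_le_mul_left _ h)⟩

lemma sum_inv_sq_le (a : ℕ) (ha : 2 ≤ a) : ∀ b, ∑ q ∈ Ico a b, (1 : ℝ) / (q : ℝ) ^ 2 ≤
    1 / ((a : ℝ) - 1) := by
  have h : ∀ b, a ≤ b → ∑ q ∈ Ico a b, (1 : ℝ) / (q : ℝ) ^ 2 ≤
      1 / ((a : ℝ) - 1) - 1 / ((b : ℝ) - 1) := by
    intro b hb
    induction b, hb using Nat.le_induction with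
    | base => simp
    | succ n hn ih =>
      rw [Finset.sum_Ico_succ_top hn]
      have hnR : (2 : ℝ) ≤ n := by exact_mod_cast ha.trans hn
      have : (1 : ℝ) / (n : ℝ) ^ 2 ≤ 1 / ((n : ℝ) - 1) - 1 / (((n + 1 : ℕ) : ℝ) - 1) := by
        push_cast
        rw [div_sub_div _ _ (by linarith) (by linarith), div_le_div_iff₀ (by positivity) (by nlinarith)]
        nlinarith
      linarith
  intro b
  have haR : (2 : ℝ) ≤ a := by exact_mod_cast ha
  by_cases hb : a ≤ b
  · refine (h b hb).trans ?_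
    have hbR : (2 : ℝ) ≤ b := by exact_mod_cast ha.trans hb
    have : (0 : ℝ) ≤ 1 / ((b : ℝ) - 1) := div_nonneg one_pos.le (by linarith)
    linarith
  · rw [Finset.Ico_eq_empty (by omega), Finset.sum_empty]
    exact div_nonneg one_pos.le (by linarith)

/-- Small moduli: the two groups of slots together have little mass. -/
theorem exists_small_pool {r EQ : ℕ} (hr : 1 ≤ r) (A B : Finset ℕ)
    (hA : ∀ p ∈ A, p.Prime ∧ p < 2 ^ r) (hB : ∀ p ∈ B, p.Prime ∧ p < 2 ^ r)
    (hAB : Disjoint A B) (h2 : 2 ∈ A) (hAc : EQ ≤ A.card) (hBc : EQ ≤ B.card) (hEQ : 1 ≤ EQ) :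
    ∃ KA KB : Fin (40 * r) → Fin (2 ^ (4 * EQ)),
      ∑ q ∈ Ico 2 (2 ^ EQ),
        W (fun x : (Fin (40 * r) → {T // T ∈ A.powerset}) × (Fin (40 * r) → {T // T ∈ B.powerset}) =>
          pool (subProd A) KA x.1 + pool (subProd B) KB x.2) q
        ≤ 1 / (2 : ℝ) ^ (2 * r) := by
  obtain ⟨KA, KB, hK⟩ := exists_pool_pair (subProd A) (subProd B) (40 * r)
    (show 0 < 2 ^ (4 * EQ) by positivity) (Ico 2 (2 ^ EQ))
    (fun q hq => by have := (Finset.mem_Ico.1 hq).1; omega)
  refine ⟨KA, KB, hK.trans ?_⟩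
  set M := 2 ^ (4 * r) with hM
  have hsplit : ∀ q ∈ Ico (2 : ℕ) (2 ^ EQ),
      (q : ℝ) * min ((coll (subProd A) q + (q : ℝ) / ((2 ^ (4 * EQ) : ℕ) : ℝ)) ^ (40 * r))
        ((coll (subProd B) q + (q : ℝ) / ((2 ^ (4 * EQ) : ℕ) : ℝ)) ^ (40 * r))
      ≤ (if q < M then (M : ℝ) * (1 / (4 : ℝ) ^ (8 * r)) else 0)
        + (if q < M then 0 else 1 / (q : ℝ) ^ 2) := by
    intro q hq
    obtain ⟨hq2, hqE⟩ := Finset.mem_Ico.1 hq
    have hqR : (2 : ℝ) ≤ q := by exact_mod_cast hq2
    have herr : (q : ℝ) / ((2 ^ (4 * EQ) : ℕ) : ℝ) ≤ 1 / (2 : ℝ) ^ (3 * EQ) := by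
      push_cast
      rw [div_le_div_iff₀ (by positivity) (by positivity), one_mul]
      have h1 : (q : ℝ) ≤ (2 : ℝ) ^ EQ := by exact_mod_cast hqE.le
      calc (q : ℝ) * 2 ^ (3 * EQ) ≤ (2 : ℝ) ^ EQ * 2 ^ (3 * EQ) := by gcongr
        _ = 2 ^ (4 * EQ) := by rw [← pow_add]; ring_nf
    split_ifs with hqM
    · rw [add_zero]
      have h34 : coll (subProd A) q + (q : ℝ) / ((2 ^ (4 * EQ) : ℕ) : ℝ) ≤ 3 / 4 := by
        have := coll_subProd_le_half (fun p hp => (hA p hp).1) h2 hq2
        have h8 : 1 / (2 : ℝ) ^ (3 * EQ) ≤ 1 / 4 := by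
          apply one_div_le_one_div_of_le (by norm_num)
          calc (4 : ℝ) = 2 ^ 2 := by norm_num
            _ ≤ _ := pow_le_pow_right₀ (by norm_num) (by omega)
        linarith
      have hnn : 0 ≤ coll (subProd A) q + (q : ℝ) / ((2 ^ (4 * EQ) : ℕ) : ℝ) :=
        add_nonneg (coll_nonneg _ _) (by positivity)
      refine mul_le_mul (by exact_mod_cast hqM.le) ((min_le_left _ _).trans ?_)
        (le_min (pow_nonneg hnn _) (pow_nonneg (add_nonneg (coll_nonneg _ _) (by positivity)) _))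
        (by positivity)
      refine (pow_le_pow_left₀ hnn h34 _).trans ?_
      rw [show 40 * r = 5 * (8 * r) by ring, pow_mul, one_div, ← inv_pow]
      exact pow_le_pow_left₀ (by positivity) (by norm_num) _
    · rw [zero_add]
      push Not at hqM
      have main : ∀ (C : Finset ℕ), (∀ p ∈ C, p.Prime ∧ p < 2 ^ r) → EQ ≤ C.card →
          (∃ q', q' ∣ q ∧ (∀ p ∈ C, Nat.Coprime p q') ∧ q ≤ q' ^ 2) →
          (coll (subProd C) q + (q : ℝ) / ((2 ^ (4 * EQ) : ℕ) : ℝ)) ^ (40 * r) ≤
            1 / (q : ℝ) ^ 5 := by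
        intro C hC hCc ⟨q', hdvd, hco, hsq⟩
        have hq'0 : q' ≠ 0 := by rintro rfl; simp at hsq; omega
        set l := Nat.log 2 q' / r with hl
        have hlow : 2 ^ (r * l) ≤ q' :=
          (Nat.pow_le_pow_right (by norm_num) (Nat.mul_div_le _ r)).trans (Nat.pow_log_le_self 2 hq'0)
        have hup : q' < 2 ^ (r * (l + 1)) := by
          refine lt_of_lt_of_le (Nat.lt_pow_succ_log_self (by norm_num) q')
            (Nat.pow_le_pow_right (by norm_num) ?_)
          exact Nat.lt_mul_div_succ _ (by omega)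
        have hl2 : 2 ≤ l := by
          by_contra hc
          have h1 : q < (2 ^ (r * (l + 1))) ^ 2 :=
            lt_of_le_of_lt hsq (Nat.pow_lt_pow_left hup (by norm_num))
          rw [← pow_mul] at h1
          have h2' : 2 ^ (r * (l + 1) * 2) ≤ M := by
            refine Nat.pow_le_pow_right (by norm_num) ?_
            have : r * (l + 1) ≤ r * 2 := Nat.mul_le_mul_left r (by omega)
            omega
          omega
        have hlE : l ≤ EQ := by
          have : 2 ^ (r * l) < 2 ^ EQ :=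
            lt_of_le_of_lt (hlow.trans (Nat.le_of_dvd (by omega) hdvd)) hqE
          have := (Nat.pow_lt_pow_iff_right (by norm_num)).1 this
          have : l ≤ r * l := Nat.le_mul_of_pos_left l hr
          omega
        have hcb := coll_subProd_le hC (hlE.trans hCc) hdvd hco hlow
        have hsum : coll (subProd C) q + (q : ℝ) / ((2 ^ (4 * EQ) : ℕ) : ℝ) ≤ 2 / (2 : ℝ) ^ l := by
          have : 1 / (2 : ℝ) ^ (3 * EQ) ≤ 1 / (2 : ℝ) ^ l :=
            one_div_le_one_div_of_le (by positivity) (pow_le_pow_right₀ (by norm_num) (by omega))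
          rw [show (2 : ℝ) / 2 ^ l = 1 / 2 ^ l + 1 / 2 ^ l by ring]
          linarith
        refine (pow_le_pow_left₀ (add_nonneg (coll_nonneg _ _) (by positivity)) hsum _).trans ?_
        rw [div_pow, ← pow_mul, div_le_div_iff₀ (by positivity) (by positivity), one_mul]
        have hqb : q ≤ 2 ^ (4 * r * l - 8 * 0) := by
          refine hsq.trans ((Nat.pow_le_pow_left hup.le 2).trans ?_)
          rw [← pow_mul]
          refine Nat.pow_le_pow_right (by norm_num) ?_
          have : r * (l + 1) ≤ r * (2 * l) := Nat.mul_le_mul_left r (by omega)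
          calc r * (l + 1) * 2 ≤ r * (2 * l) * 2 := Nat.mul_le_mul_right 2 this
            _ = _ := by rw [Nat.mul_zero, Nat.sub_zero]; ring
        have hqb' : (q : ℝ) ≤ (2 : ℝ) ^ (4 * r * l) := by simpa using (Nat.cast_le (α := ℝ)).2 hqb
        calc (2 : ℝ) ^ (40 * r) * (q : ℝ) ^ 5 ≤ 2 ^ (40 * r) * ((2 : ℝ) ^ (4 * r * l)) ^ 5 := by
              gcongr
          _ = (2 : ℝ) ^ (40 * r + 20 * r * l) := by rw [← pow_mul, ← pow_add]; ring_nf
          _ ≤ _ := pow_le_pow_right₀ (by norm_num) (by nlinarith)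
      have hmin : min ((coll (subProd A) q + (q : ℝ) / ((2 ^ (4 * EQ) : ℕ) : ℝ)) ^ (40 * r))
          ((coll (subProd B) q + (q : ℝ) / ((2 ^ (4 * EQ) : ℕ) : ℝ)) ^ (40 * r)) ≤
            1 / (q : ℝ) ^ 5 := by
        rcases exists_strip A B (fun p hp => (hA p hp).1) (fun p hp => (hB p hp).1) hAB
          (show q ≠ 0 by omega) with h | h
        · exact (min_le_left _ _).trans (main A hA hAc h)
        · exact (min_le_right _ _).trans (main B hB hBc h)
      refine (mul_le_mul_of_nonneg_left hmin (by linarith)).trans ?_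
      rw [← mul_div_assoc, mul_one, div_le_div_iff₀ (by positivity) (by positivity), one_mul]
      calc (q : ℝ) * (q : ℝ) ^ 2 = (q : ℝ) ^ 3 := by ring
        _ ≤ (q : ℝ) ^ 5 := pow_le_pow_right₀ (by linarith) (by norm_num)
  refine (Finset.sum_le_sum hsplit).trans ?_
  rw [Finset.sum_add_distrib, ← Finset.sum_filter, Finset.sum_ite, Finset.sum_const_zero, zero_add,
    Finset.sum_const, nsmul_eq_mul]
  have hc1 : (((Ico 2 (2 ^ EQ)).filter (· < M)).card : ℝ) ≤ M := by
    have : ((Ico 2 (2 ^ EQ)).filter (· < M)).card ≤ M := by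
      refine (Finset.card_le_card (t := range M) fun q hq => ?_).trans (by simp)
      exact Finset.mem_range.2 (Finset.mem_filter.1 hq).2
    exact_mod_cast this
  have hM2 : 2 ≤ M := by
    calc 2 = 2 ^ 1 := rfl
      _ ≤ M := Nat.pow_le_pow_right (by norm_num) (by omega)
  have hs2 : ∑ q ∈ (Ico 2 (2 ^ EQ)).filter (fun q => ¬ q < M), (1 : ℝ) / (q : ℝ) ^ 2
      ≤ 1 / ((M : ℝ) - 1) := by
    refine le_trans (Finset.sum_le_sum_of_subset_of_nonneg ?_ fun _ _ _ => by positivity)
      (sum_inv_sq_le M hM2 (2 ^ EQ))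
    intro q hq
    simp only [Finset.mem_filter, Finset.mem_Ico, not_lt] at hq ⊢
    exact ⟨hq.2, hq.1.2⟩
  set X : ℝ := (2 : ℝ) ^ (2 * r) with hX
  have hX4 : 4 ≤ X := by
    calc (4 : ℝ) = 2 ^ 2 := by norm_num
      _ ≤ X := pow_le_pow_right₀ (by norm_num) (by omega)
  have hMX : (M : ℝ) = X ^ 2 := by
    rw [hM, hX, ← pow_mul]; push_cast; ring_nf
  have h48 : (4 : ℝ) ^ (8 * r) = X ^ 8 := by
    rw [hX, ← pow_mul, show (4 : ℝ) = 2 ^ 2 by norm_num, ← pow_mul]; ring_nf
  refine (add_le_add (mul_le_mul_of_nonneg_right hc1 (by positivity)) hs2).trans ?_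
  rw [hMX, h48]
  have e1 : X ^ 2 * (X ^ 2 * (1 / X ^ 8)) = 1 / X ^ 4 := by field_simp
  rw [e1]
  have e2 : 1 / X ^ 4 ≤ 1 / (2 * X) := by
    apply one_div_le_one_div_of_le (by positivity)
    nlinarith [pow_le_pow_left₀ (by norm_num) hX4 3]
  have e3 : 1 / (X ^ 2 - 1) ≤ 1 / (2 * X) := by
    apply one_div_le_one_div_of_le (by positivity)
    nlinarith
  have e4 : 1 / (2 * X) + 1 / (2 * X) = 1 / X := by ring
  linarith

end Vale.Agent.P012
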