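import Vale.Agent.P012.Pools
import Vale.Agent.P012.Params

/-!
# The universal pool
-/

namespace Vale.Agent.P012

open Finset

/-- The exponent of goodness. -/
noncomputable def alpha : ℝ := 1 / 65536

/-- The number of copies of the main system in a pool. -/
def copies : ℕ := 393216

lemma exists_primes {lam : ℕ} (hL : Large lam) :
    ∃ P A B : Finset ℕ, (∀ p ∈ P, p.Prime ∧ p < 2 ^ pr lam) ∧
      (∀ p ∈ A, p.Prime ∧ p < 2 ^ pr lam) ∧ (∀ p ∈ B, p.Prime ∧ p < 2 ^ pr lam) ∧
      P.card = pE lam ∧ A.card = pQ lam ∧ B.card = pQ lam ∧ Disjoint A B ∧ 2 ∈ A := by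
  classical
  have h1 := hL.one_le
  have hr2 : 2 ≤ pr lam := by unfold pr; omega
  set r := pr lam with hr
  set n := 2 ^ r with hn
  set need := 8192 * pE lam + pE lam with hneed
  have hpi := Chebyshev.pi_ge n
  have hπ : need ≤ Nat.primeCounting n := by
    have hlogn : Real.log (n : ℝ) = r * Real.log 2 := by
      rw [hn, Nat.cast_pow, Real.log_pow]; norm_num
    have hlogn1 : Real.log ((n : ℝ) + 1) ≤ (r + 1) * Real.log 2 := by
      calc Real.log ((n : ℝ) + 1) ≤ Real.log ((2 : ℝ) ^ (r + 1)) := by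
            apply Real.log_le_log (by positivity)
            have : (1 : ℝ) ≤ (2 : ℝ) ^ r := one_le_pow₀ (by norm_num)
            rw [hn, pow_succ]
            push_cast
            linarith
        _ = _ := by rw [Real.log_pow]; push_cast; ring
    have hl2 : 0 < Real.log 2 := Real.log_pos one_lt_two
    have hrR : (0 : ℝ) < r := by
      have : (2 : ℝ) ≤ r := by exact_mod_cast hr2
      linarith
    have hnum : ((2 * need * r + (r + 1) : ℕ) : ℝ) ≤ (n : ℝ) := by exact_mod_cast hL.primes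
    push_cast at hnum
    rw [hlogn, div_le_iff₀ (by positivity)] at hpi
    have hb : ((need : ℝ) * r) * Real.log 2 ≤ (Nat.primeCounting n : ℝ) * r * Real.log 2 := by
      have h2 : (0 : ℝ) ≤ need * r := by positivity
      nlinarith
    have := le_of_mul_le_mul_right (le_of_mul_le_mul_right hb hl2) hrR
    exact_mod_cast this
  set Ps := (Finset.range (n + 1)).filter Nat.Prime with hPs
  have hPsmem : ∀ p ∈ Ps, p.Prime ∧ p < 2 ^ r := by
    intro p hp
    obtain ⟨hpn, hpp⟩ := Finset.mem_filter.1 hp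
    refine ⟨hpp, ?_⟩
    rw [Finset.mem_range] at hpn
    rcases Nat.lt_or_ge p n with h | h
    · exact h
    · exfalso
      have : p = 2 ^ r := by omega
      rw [this] at hpp
      exact absurd hpp (Nat.Prime.not_prime_pow hr2)
  have hPscard : Ps.card = Nat.primeCounting n := by
    rw [hPs, Nat.primeCounting, Nat.primeCounting', Nat.count_eq_card_filter_range]
  have h2mem : 2 ∈ Ps := by
    rw [hPs, Finset.mem_filter, Finset.mem_range]
    refine ⟨?_, Nat.prime_two⟩
    have : 2 ^ 1 ≤ n := Nat.pow_le_pow_right (by norm_num) (by omega)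
    omega
  have hE := pE_pos lam
  obtain ⟨P, hP, hPc⟩ := Finset.exists_subset_card_eq (show pE lam ≤ Ps.card by omega)
  obtain ⟨A', hA', hA'c⟩ := Finset.exists_subset_card_eq
    (show pQ lam - 1 ≤ (Ps.erase 2).card by
      rw [Finset.card_erase_of_mem h2mem]; unfold pQ; omega)
  obtain ⟨B, hB, hBc⟩ := Finset.exists_subset_card_eq
    (show pQ lam ≤ (Ps.erase 2 \ A').card by
      rw [Finset.card_sdiff_of_subset hA', Finset.card_erase_of_mem h2mem]; unfold pQ at *; omega)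
  refine ⟨P, insert 2 A', B, fun p hp => hPsmem p (hP hp), ?_, ?_, hPc, ?_, hBc, ?_,
    Finset.mem_insert_self _ _⟩
  · intro p hp
    rcases Finset.mem_insert.1 hp with rfl | hp
    · exact hPsmem 2 h2mem
    · exact hPsmem p (Finset.mem_of_mem_erase (hA' hp))
  · exact fun p hp => hPsmem p (Finset.mem_of_mem_erase (Finset.mem_sdiff.1 (hB hp)).1)
  · rw [Finset.card_insert_of_notMem (fun h => (Finset.mem_erase.1 (hA' h)).1 rfl), hA'c]
    unfold pQ
    omega
  · rw [Finset.disjoint_left]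
    intro p hp hpB
    have hm := Finset.mem_sdiff.1 (hB hpB)
    rcases Finset.mem_insert.1 hp with rfl | hp
    · exact (Finset.mem_erase.1 hm.1).1 rfl
    · exact hm.2 hp

lemma rpow_le_of_le_two_pow {q W : ℕ} (hq : 1 ≤ q) (hqW : q ≤ 2 ^ W) (α : ℝ) (hα : 0 ≤ α) :
    (2 : ℝ) ^ (-((W : ℝ) * α)) ≤ (q : ℝ) ^ (-α) := by
  rw [← mul_neg, Real.rpow_mul (by norm_num), Real.rpow_natCast]
  exact Real.rpow_le_rpow_of_nonpos (by exact_mod_cast hq) (by exact_mod_cast hqW) (by linarith)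

lemma pool_le {ι : Type} [Fintype ι] (v : ι → ℕ) {m K0 U : ℕ} (hv : ∀ i, v i ≤ U)
    (K : Fin m → Fin K0) (f : Fin m → ι) : pool v K f ≤ m * (K0 * U) := by
  unfold pool
  calc ∑ s, ((K s).val + 1) * v (f s) ≤ ∑ _s : Fin m, K0 * U :=
        Finset.sum_le_sum fun s _ => Nat.mul_le_mul (K s).isLt (hv _)
    _ = _ := by simp

lemma pool_rep {ι : Type} [Fintype ι] (v : ι → ℕ) {m K0 D k : ℕ} (hv : ∀ i, Rep D k (v i))
    (K : Fin m → Fin K0) (f : Fin m → ι) :
    Rep (D * ∏ s, ((K s).val + 1)) (m * k) (pool v K f) := by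
  unfold pool
  have := Rep.sum (univ : Finset (Fin m)) (fun s => ((K s).val + 1) * v (f s)) (D := D * ∏ s, ((K s).val + 1))
    (k := k) (fun s hs => ((hv (f s)).smul ((K s).val + 1)).mono
      (by rw [mul_comm]; exact Nat.mul_dvd_mul_left D (Finset.dvd_prod_of_mem _ hs)) le_rfl)
  simpa using this

lemma prod_succ_le {m K0 : ℕ} (K : Fin m → Fin K0) : ∏ s, ((K s).val + 1) ≤ K0 ^ m := by
  calc ∏ s, ((K s).val + 1) ≤ ∏ _s : Fin m, K0 := Finset.prod_le_prod' fun s _ => (K s).isLt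
    _ = _ := by simp

/-- The universal pool. -/
theorem exists_system {lam : ℕ} (hL : Large lam) :
    ∃ (M : ℕ) (Bad : Finset ℕ),
      2 ^ (10 ^ 10 * pS lam) ≤ M ∧ M ≤ 2 ^ (2 * 10 ^ 10 * pS lam) ∧
      (∀ q ∈ Bad, 2 ^ pQ lam ≤ q ∧ q ≤ 2 ^ (16000 * pS lam)) ∧
      (∑ q ∈ Bad, (q : ℝ) ^ (-(1 / 16) : ℝ)) ≤ 1 / (2 : ℝ) ^ (4 * pE lam) ∧
      (∀ B : ℕ, B ≠ 0 → B ≤ 2 ^ (8 * pS lam) → (∀ q ∈ Bad, ¬ q ∣ B) → ∀ c,
        ∃ x, Rep M (2 * (80 * pr lam + copies * pk lam)) x ∧ x ≤ 2 ^ (8193 * pS lam) ∧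
          x % B = c % B) ∧
      (∀ B : ℕ, B ≠ 0 → B ≤ 2 ^ (16000 * pS lam) → (∀ q ∈ Bad, ¬ q ∣ B) → ∀ c,
        ∃ x, Rep M (2 * (80 * pr lam + copies * pk lam)) x ∧ x % B = c % B) := by
  classical
  obtain ⟨P, A, B₀, hP, hA, hB, hPc, hAc, hBc, hAB, h2A⟩ := exists_primes hL
  have h1 := hL.one_le
  have hbig : 2 ^ 40 ≤ pE lam := hL.big
  set r := pr lam with hr
  set E := pE lam with hEdef
  set S := pS lam with hSdef
  set k := pk lam with hk
  set EQ := pQ lam with hEQdef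
  have hr32 : 32 ≤ r := by simp only [hr, pr]; omega
  have hrk : r ≤ k := pr_le_pk lam
  have hES : E ≤ S := pE_le_pS lam
  have hkE : S = k * E := rfl
  have hEQ : EQ = 4096 * E := rfl
  obtain ⟨ι, _, _, v, D, hD0, hD, hv, hvrep, hcoll⟩ :=
    main_system (pE_pos lam) P (fun p hp => ⟨(hP p hp).1, (hP p hp).2.le⟩) hPc (pJ lam)
  have hk2 : 2 ^ pJ lam = k := rfl
  rw [hk2] at hvrep
  set e := expo E (pJ lam) with he
  have heq : e = k * (E - 1) + 1 := by rw [he, expo_eq (pE_pos lam), hk2]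
  have hkE' : k * (E - 1) + k = S := by
    rw [hkE, ← Nat.mul_succ, Nat.succ_eq_add_one, Nat.sub_add_cancel (pE_pos lam)]
  have he_le : e ≤ S := by have := pk_pos lam; omega
  have h2k : 2 * k ≤ S := by
    rw [hkE, mul_comm 2 k]; exact Nat.mul_le_mul_left k (by omega)
  have he_ge : S ≤ 2 * e := by omega
  have hJk : pJ lam ≤ k := by
    rw [← hk2]; exact Nat.lt_two_pow_self.le
  have hrE : r * E ≤ S := Nat.mul_le_mul_right E hrk
  have h3J : 3 * pJ lam ≤ S := by
    calc 3 * pJ lam ≤ 3 * k := Nat.mul_le_mul_left 3 hJk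
      _ ≤ E * k := Nat.mul_le_mul_right k (by omega)
      _ = S := by rw [hkE, mul_comm]
  have hexp : r * E + 2 * e + 3 * pJ lam ≤ 4 * S := by omega
  have hvU : ∀ i, v i ≤ 2 ^ (4 * S) := fun i =>
    (hv i).trans (Nat.pow_le_pow_right (by norm_num) hexp)
  have hDU : D ≤ 2 ^ (4 * S) := hD.trans (Nat.pow_le_pow_right (by norm_num) hexp)
  have hSR : (4 : ℝ) ≤ S := by exact_mod_cast (show 4 ≤ S by omega)
  -- small collision probability
  have hc0 : 2 * coll v 0 ≤ (2 : ℝ) ^ (-((S : ℝ) / 4)) := by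
    refine (mul_le_mul_of_nonneg_left hcoll (by norm_num)).trans ?_
    rw [one_div, ← Real.rpow_natCast, ← Real.rpow_neg (by norm_num)]
    calc (2 : ℝ) * 2 ^ (-(e : ℝ)) = (2 : ℝ) ^ (1 + -(e : ℝ)) := by
          rw [Real.rpow_add (by norm_num), Real.rpow_one]
      _ ≤ _ := by
          apply Real.rpow_le_rpow_of_exponent_le (by norm_num)
          have : (S : ℝ) ≤ 2 * e := by exact_mod_cast he_ge
          linarith
  have hα : ∀ q W : ℕ, 1 ≤ q → q ≤ 2 ^ W → W ≤ 16000 * S →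
      (2 : ℝ) ^ (-((S : ℝ) / 4)) ≤ (q : ℝ) ^ (-alpha) := by
    intro q W hq hqW hW
    refine le_trans ?_ (rpow_le_of_le_two_pow hq hqW alpha (by norm_num [alpha]))
    apply Real.rpow_le_rpow_of_exponent_le (by norm_num)
    have : (W : ℝ) ≤ 16000 * S := by exact_mod_cast hW
    rw [alpha]
    linarith
  -- exceptional moduli
  set Bad : Finset ℕ := (Icc (2 ^ EQ) (2 ^ (16000 * S))).filter
    (fun q => (q : ℝ) ^ (-alpha) < coll v q) with hBad
  have hBadmem : ∀ q ∈ Bad, 2 ^ EQ ≤ q ∧ q ≤ 2 ^ (16000 * S) := by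
    intro q hq
    have := (Finset.mem_filter.1 hq).1
    simpa using this
  have hbeta : (∑ q ∈ Bad, (q : ℝ) ^ (-(1 / 16) : ℝ)) ≤ 1 / (2 : ℝ) ^ (4 * E) := by
    refine (sum_bad_le v Bad ((2 : ℝ) ^ (65 * E)) alpha (1 / 16) (by norm_num [alpha])
      (Q0 := 2 ^ EQ) Nat.one_le_two_pow (fun q hq => (hBadmem q hq).1) ?_ (by positivity) ?_
      (fun q hq => (Finset.mem_filter.1 hq).2)).trans ?_
    · intro i j hij
      have hd : Nat.dist (v i) (v j) ≤ 2 ^ (4 * S) := by
        have := hvU i; have := hvU j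
        unfold Nat.dist; omega
      have hne : Nat.dist (v i) (v j) ≠ 0 := fun h => hij (Nat.eq_of_dist_eq_zero h)
      have hdiv := card_divisors_le hne hd (show 1 ≤ 4 * lam by omega)
      have hk64 : 4 * S / (4 * lam) ≤ 64 * E := by
        apply Nat.div_le_of_le_mul
        have : S ≤ 64 * lam * E := Nat.mul_le_mul_right E (pk_le lam h1)
        calc 4 * S ≤ 4 * (64 * lam * E) := Nat.mul_le_mul_left 4 this
          _ = 4 * lam * (64 * E) := by ring
      have : (Nat.dist (v i) (v j)).divisors.card ≤ 2 ^ (65 * E) := by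
        refine hdiv.trans ((Nat.mul_le_mul hL.tauSmall (Nat.pow_le_pow_right (by norm_num) hk64)).trans ?_)
        rw [← pow_add]
        exact le_of_eq (by congr 1; ring)
      exact_mod_cast this
    · intro q hq
      obtain ⟨hq1, hq2⟩ := hBadmem q hq
      exact hc0.trans (hα q _ (le_trans Nat.one_le_two_pow hq1) hq2 le_rfl)
    · push_cast
      rw [one_div ((2 : ℝ) ^ (4 * E)), ← Real.rpow_natCast 2 (65 * E),
        ← Real.rpow_natCast 2 (4 * E), ← Real.rpow_natCast 2 EQ, ← Real.rpow_neg (by norm_num),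
        ← Real.rpow_mul (by norm_num)]
      conv_lhs => arg 1; arg 1; rw [← Real.rpow_one 2]
      rw [← Real.rpow_add (by norm_num), ← Real.rpow_add (by norm_num)]
      apply Real.rpow_le_rpow_of_exponent_le (by norm_num)
      rw [hEQ, alpha]
      push_cast
      have : (1 : ℝ) ≤ E := by exact_mod_cast pE_pos lam
      linarith
  -- pools
  obtain ⟨KA, KB, hKV⟩ := exists_small_pool (r := r) (EQ := EQ) (by omega) A B₀ hA hB hAB h2A
    hAc.ge hBc.ge (by omega)
  set T : ℕ → Finset ℕ := fun W => (Icc (2 ^ EQ) (2 ^ W)).filter (fun q => q ∉ Bad) with hT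
  have hmain : ∀ W R : ℕ, W ≤ 16000 * S → W + 2 * S ≤ R →
      ∃ K : Fin copies → Fin (2 ^ R), ∑ q ∈ T W, P012.W (pool v K) q ≤ 1 / 4 := by
    intro W R hW hR
    have hT0 : ∀ q ∈ T W, q ≠ 0 := by
      intro q hq
      have := (Finset.mem_Icc.1 (Finset.mem_filter.1 hq).1).1
      have := Nat.one_le_two_pow (n := EQ)
      omega
    obtain ⟨K, hK⟩ := exists_pool v copies (K0 := 2 ^ R) (by positivity) (T W) hT0
    refine ⟨K, hK.trans ?_⟩
    have hEQ2 : copies ≤ EQ := by simp only [copies]; omega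
    refine (Finset.sum_le_sum (g := fun q : ℕ => (1 : ℝ) / (q : ℝ) ^ 2) fun q hq => ?_).trans ?_
    · obtain ⟨hqI, hqB⟩ := Finset.mem_filter.1 hq
      obtain ⟨hq1, hq2⟩ := Finset.mem_Icc.1 hqI
      have hq' : q ≤ 2 ^ (16000 * S) := hq2.trans (Nat.pow_le_pow_right (by norm_num) hW)
      have hgood : coll v q ≤ (q : ℝ) ^ (-alpha) := by
        by_contra hc
        exact hqB (Finset.mem_filter.2 ⟨Finset.mem_Icc.2 ⟨hq1, hq'⟩, not_le.1 hc⟩)
      have hqR : (1 : ℝ) ≤ q := by exact_mod_cast le_trans Nat.one_le_two_pow hq1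
      have herr : (q : ℝ) / ((2 ^ R : ℕ) : ℝ) ≤ (q : ℝ) ^ (-alpha) := by
        refine le_trans ?_ (hα q W (le_trans Nat.one_le_two_pow hq1) hq2 hW)
        push_cast
        rw [div_le_iff₀ (by positivity)]
        calc (q : ℝ) ≤ (2 : ℝ) ^ W := by exact_mod_cast hq2
          _ ≤ (2 : ℝ) ^ (-((S : ℝ) / 4)) * 2 ^ R := by
            rw [← Real.rpow_natCast 2 W, ← Real.rpow_natCast 2 R, ← Real.rpow_add (by norm_num)]
            apply Real.rpow_le_rpow_of_exponent_le (by norm_num)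
            have : (W : ℝ) + 2 * S ≤ R := by exact_mod_cast hR
            linarith
      calc (q : ℝ) * (coll v q + (q : ℝ) / ((2 ^ R : ℕ) : ℝ)) ^ copies
          ≤ (q : ℝ) * (2 * (q : ℝ) ^ (-alpha)) ^ copies := by
            refine mul_le_mul_of_nonneg_left (pow_le_pow_left₀ ?_ (by linarith) _) (by linarith)
            exact add_nonneg (coll_nonneg _ _) (by positivity)
        _ = (2 : ℝ) ^ copies * ((q : ℝ) * ((q : ℝ) ^ 6)⁻¹) := by
            rw [mul_pow, ← Real.rpow_natCast ((q : ℝ) ^ (-alpha)) copies,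
              ← Real.rpow_mul (by linarith),
              show -alpha * (copies : ℝ) = -((6 : ℕ) : ℝ) by norm_num [alpha, copies],
              Real.rpow_neg (by linarith), Real.rpow_natCast]
            ring
        _ ≤ (q : ℝ) ^ 1 * ((q : ℝ) * ((q : ℝ) ^ 6)⁻¹) := by
            apply mul_le_mul_of_nonneg_right _ (by positivity)
            rw [pow_one]
            calc (2 : ℝ) ^ copies ≤ (2 : ℝ) ^ EQ := pow_le_pow_right₀ (by norm_num) hEQ2
              _ ≤ _ := by exact_mod_cast hq1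
        _ = 1 / (q : ℝ) ^ 4 := by field_simp
        _ ≤ _ := one_div_le_one_div_of_le (by positivity) (pow_le_pow_right₀ hqR (by norm_num))
    · refine le_trans (Finset.sum_le_sum_of_subset_of_nonneg (t := Ico (2 ^ EQ) (2 ^ W + 1)) ?_
        fun _ _ _ => by positivity) ((sum_inv_sq_le (2 ^ EQ) ?_ _).trans ?_)
      · intro q hq
        have := Finset.mem_Icc.1 (Finset.mem_filter.1 hq).1
        rw [Finset.mem_Ico]
        omega
      · calc 2 = 2 ^ 1 := rfl
          _ ≤ _ := Nat.pow_le_pow_right (by norm_num) (by omega)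
      · apply one_div_le_one_div_of_le (by norm_num)
        have : (2 : ℝ) ^ 3 ≤ (2 : ℝ) ^ EQ := pow_le_pow_right₀ (by norm_num) (by omega)
        push_cast
        linarith
  obtain ⟨K1, hK1⟩ := hmain (8 * S) (10 * S) (by omega) (by omega)
  obtain ⟨K2, hK2⟩ := hmain (16000 * S) (16002 * S) le_rfl (by omega)
  set PA := ∏ p ∈ A, p with hPA
  set PB := ∏ p ∈ B₀, p with hPB
  set M := 2 ^ (10 ^ 10 * S) * ((PA * ∏ s, ((KA s).val + 1)) * (PB * ∏ s, ((KB s).val + 1)) *
    ((D * ∏ s, ((K1 s).val + 1)) * ∏ s, ((K2 s).val + 1))) with hM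
  have hApos : 0 < PA := Finset.prod_pos fun p hp => (hA p hp).1.pos
  have hBpos : 0 < PB := Finset.prod_pos fun p hp => (hB p hp).1.pos
  have hAle : PA ≤ 2 ^ (r * EQ) := by
    calc PA ≤ ∏ _p ∈ A, 2 ^ r := Finset.prod_le_prod' fun p hp => (hA p hp).2.le
      _ = _ := by rw [Finset.prod_const, hAc, ← pow_mul]
  have hBle : PB ≤ 2 ^ (r * EQ) := by
    calc PB ≤ ∏ _p ∈ B₀, 2 ^ r := Finset.prod_le_prod' fun p hp => (hB p hp).2.le
      _ = _ := by rw [Finset.prod_const, hBc, ← pow_mul]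
  -- values of a draw
  let u : ∀ R : ℕ, (Fin copies → Fin (2 ^ R)) →
      ((Fin (40 * r) → {T // T ∈ A.powerset}) × (Fin (40 * r) → {T // T ∈ B₀.powerset})) ×
        (Fin copies → ι) → ℕ :=
    fun R K x => (pool (subProd A) KA x.1.1 + pool (subProd B₀) KB x.1.2) + pool v K x.2
  haveI : Nonempty {T // T ∈ A.powerset} := ⟨⟨∅, by simp⟩⟩
  haveI : Nonempty {T // T ∈ B₀.powerset} := ⟨⟨∅, by simp⟩⟩
  have hcov : ∀ W R (K : Fin copies → Fin (2 ^ R)), ∑ q ∈ T W, P012.W (pool v K) q ≤ 1 / 4 →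
      D * ∏ s, ((K s).val + 1) ∣ M →
      ∀ B : ℕ, B ≠ 0 → B ≤ 2 ^ W → (∀ q ∈ Bad, ¬ q ∣ B) → ∀ c : ℕ,
        ∃ x y, (u R K x + u R K y) % B = c % B ∧
          Rep M (2 * (80 * r + copies * k)) (u R K x + u R K y) := by
    intro W R K hK hdvd B hB0 hBW hBbad c
    have hlt : ∑ t ∈ Ico 1 B, Psi (u R K) B t < 1 := by
      refine lt_of_le_of_lt (sum_Psi_le_sum_W (u R K) hB0) ?_
      have hW : ∀ q, P012.W (pool v K) q ≥ P012.W (u R K) q ∧
          P012.W (fun x : (Fin (40 * r) → {T // T ∈ A.powerset}) ×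
            (Fin (40 * r) → {T // T ∈ B₀.powerset}) =>
            pool (subProd A) KA x.1 + pool (subProd B₀) KB x.2) q ≥ P012.W (u R K) q := by
        intro q
        unfold P012.W
        simp only [u, Psi_pair (fun x : (Fin (40 * r) → {T // T ∈ A.powerset}) ×
            (Fin (40 * r) → {T // T ∈ B₀.powerset}) =>
            pool (subProd A) KA x.1 + pool (subProd B₀) KB x.2) (pool v K)]
        exact ⟨Finset.sum_le_sum fun a _ => mul_le_of_le_one_left (Psi_nonneg _ _ _) (Psi_le_one _ _ _),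
          Finset.sum_le_sum fun a _ => mul_le_of_le_one_right (Psi_nonneg _ _ _) (Psi_le_one _ _ _)⟩
      rw [← Finset.sum_filter_add_sum_filter_not (B.divisors.erase 1) (fun q => q < 2 ^ EQ)]
      have hp1 : ∑ q ∈ (B.divisors.erase 1).filter (fun q => q < 2 ^ EQ), P012.W (u R K) q
          ≤ 1 / (2 : ℝ) ^ (2 * r) := by
        refine (Finset.sum_le_sum fun q _ => (hW q).2).trans (le_trans ?_ hKV)
        refine Finset.sum_le_sum_of_subset_of_nonneg ?_ fun q _ _ => W_nonneg _ _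
        intro q hq
        obtain ⟨hqd, hqE⟩ := Finset.mem_filter.1 hq
        rw [Finset.mem_erase, Nat.mem_divisors] at hqd
        have hq0 : q ≠ 0 := by
          rintro rfl
          exact hB0 (Nat.eq_zero_of_zero_dvd hqd.2.1)
        rw [Finset.mem_Ico]
        omega
      have hp2 : ∑ q ∈ (B.divisors.erase 1).filter (fun q => ¬ q < 2 ^ EQ), P012.W (u R K) q
          ≤ 1 / 4 := by
        refine (Finset.sum_le_sum fun q _ => (hW q).1).trans (le_trans ?_ hK)
        refine Finset.sum_le_sum_of_subset_of_nonneg ?_ fun q _ _ => ?_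
        · intro q hq
          obtain ⟨hqd, hqE⟩ := Finset.mem_filter.1 hq
          rw [Finset.mem_erase, Nat.mem_divisors] at hqd
          rw [hT, Finset.mem_filter, Finset.mem_Icc]
          exact ⟨⟨not_lt.1 hqE, (Nat.le_of_dvd (Nat.pos_of_ne_zero hB0) hqd.2.1).trans hBW⟩,
            fun h => hBbad q h hqd.2.1⟩
        · exact W_nonneg _ _
      have : 1 / (2 : ℝ) ^ (2 * r) ≤ 1 / 4 := by
        apply one_div_le_one_div_of_le (by norm_num)
        calc (4 : ℝ) = 2 ^ 2 := by norm_num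
          _ ≤ _ := pow_le_pow_right₀ (by norm_num) (by omega)
      linarith
    obtain ⟨x, y, hxy⟩ := cover (u R K) hB0 hlt c
    refine ⟨x, y, hxy, ?_⟩
    have hrep : ∀ x, Rep M (80 * r + copies * k) (u R K x) := by
      intro x
      have eA : Rep M (40 * r * 1) (pool (subProd A) KA x.1.1) :=
        (pool_rep (subProd A) (D := PA) (k := 1)
          (fun T => Rep.of_dvd (Finset.prod_dvd_prod_of_subset _ _ _ (Finset.mem_powerset.1 T.2)))
          KA _).mono (by rw [hM]; exact ((dvd_mul_right _ _).trans (dvd_mul_right _ _)).mul_left _) le_rfl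
      have eB : Rep M (40 * r * 1) (pool (subProd B₀) KB x.1.2) :=
        (pool_rep (subProd B₀) (D := PB) (k := 1)
          (fun T => Rep.of_dvd (Finset.prod_dvd_prod_of_subset _ _ _ (Finset.mem_powerset.1 T.2)))
          KB _).mono (by rw [hM]; exact ((dvd_mul_left _ _).trans (dvd_mul_right _ _)).mul_left _) le_rfl
      have eM : Rep M (copies * k) (pool v K x.2) := (pool_rep v hvrep K _).mono hdvd le_rfl
      refine ((eA.add eB).add eM).mono dvd_rfl ?_
      omega
    exact ((hrep x).add (hrep y)).mono dvd_rfl (by omega)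
  have hd1 : D * ∏ s, ((K1 s).val + 1) ∣ M :=
    ((dvd_mul_right _ _).trans (dvd_mul_left _ _)).mul_left _
  have hd2 : D * ∏ s, ((K2 s).val + 1) ∣ M :=
    ((Nat.mul_dvd_mul_right (dvd_mul_right D _) _).trans (dvd_mul_left _ _)).mul_left _
  have hkr : 4 + r ≤ 2 * k := by omega
  have hrEQ : r * EQ ≤ 4096 * S := by
    rw [hEQ, mul_left_comm]; exact Nat.mul_le_mul_left _ hrE
  refine ⟨M, Bad, ?_, ?_, hBadmem, hbeta, ?_, ?_⟩
  · rw [hM]
    refine Nat.le_mul_of_pos_right _ ?_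
    have hp : ∀ {m K0 : ℕ} (K : Fin m → Fin K0), 0 < ∏ s, ((K s).val + 1) :=
      fun K => Finset.prod_pos fun s _ => Nat.succ_pos _
    exact Nat.mul_pos (Nat.mul_pos (Nat.mul_pos hApos (hp KA)) (Nat.mul_pos hBpos (hp KB)))
      (Nat.mul_pos (Nat.mul_pos hD0 (hp K1)) (hp K2))
  · have eKA : ∀ K : Fin (40 * r) → Fin (2 ^ (4 * EQ)),
        ∏ s, ((K s).val + 1) ≤ 2 ^ (160 * (r * EQ)) := fun K => by
      refine (prod_succ_le K).trans (le_of_eq ?_)
      rw [← pow_mul]; ring_nf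
    have eK : ∀ R (K : Fin copies → Fin (2 ^ R)), ∏ s, ((K s).val + 1) ≤ 2 ^ (393216 * R) :=
      fun R K => by
        refine (prod_succ_le K).trans (le_of_eq ?_)
        rw [← pow_mul, mul_comm]; rfl
    rw [hM]
    refine (Nat.mul_le_mul le_rfl (Nat.mul_le_mul (Nat.mul_le_mul (Nat.mul_le_mul hAle (eKA KA))
      (Nat.mul_le_mul hBle (eKA KB))) (Nat.mul_le_mul (Nat.mul_le_mul hDU (eK _ K1)) (eK _ K2)))).trans ?_
    simp only [← pow_add]
    refine Nat.pow_le_pow_right (by norm_num) ?_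
    omega
  · intro B hB0 hBW hbad c
    obtain ⟨x, y, hxy, hrep⟩ := hcov _ _ K1 hK1 hd1 B hB0 hBW hbad c
    refine ⟨_, hrep, ?_, hxy⟩
    have hu : ∀ x, u (10 * S) K1 x ≤ 2 ^ (8193 * S - 1) := by
      intro x
      have hsA : ∀ T, subProd A T ≤ 2 ^ (r * EQ) := fun T => le_trans (Nat.le_of_dvd hApos
        (Finset.prod_dvd_prod_of_subset _ _ _ (Finset.mem_powerset.1 T.2))) hAle
      have hsB : ∀ T, subProd B₀ T ≤ 2 ^ (r * EQ) := fun T => le_trans (Nat.le_of_dvd hBpos
        (Finset.prod_dvd_prod_of_subset _ _ _ (Finset.mem_powerset.1 T.2))) hBle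
      set X := 2 ^ (8192 * S) with hX
      have hXge : 2 ^ (4 * EQ) * 2 ^ (r * EQ) ≤ X := by
        rw [← pow_add]
        refine Nat.pow_le_pow_right (by norm_num) ?_
        rw [hEQ, hkE]
        calc 4 * (4096 * E) + r * (4096 * E) = 4096 * ((4 + r) * E) := by ring
          _ ≤ 4096 * (2 * k * E) := Nat.mul_le_mul_left _ (Nat.mul_le_mul_right _ hkr)
          _ = _ := by ring
      have a := (pool_le (subProd A) hsA KA x.1.1).trans (Nat.mul_le_mul_left _ hXge)
      have b := (pool_le (subProd B₀) hsB KB x.1.2).trans (Nat.mul_le_mul_left _ hXge)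
      have c := (pool_le v hvU K1 x.2).trans (Nat.mul_le_mul_left _
        (show 2 ^ (10 * S) * 2 ^ (4 * S) ≤ X by
          rw [← pow_add]; exact Nat.pow_le_pow_right (by norm_num) (by omega)))
      have htot : u (10 * S) K1 x ≤ (80 * r + copies) * X := by
        calc u (10 * S) K1 x ≤ 40 * r * X + 40 * r * X + copies * X :=
              Nat.add_le_add (Nat.add_le_add a b) c
          _ = _ := by ring
      refine htot.trans ?_
      have hcnt : 80 * r + copies ≤ 2 ^ (S - 1) := by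
        have h2 := Nat.lt_two_pow_self (n := S - 1)
        have h3 : 2 ^ (S - 1) ≥ 2 ^ (E - 1) := Nat.pow_le_pow_right (by norm_num) (by omega)
        have h4 : 80 * r + copies ≤ 80 * S + copies := by omega
        have h5 : 80 * S + copies ≤ 2 ^ (S - 1) := by
          obtain ⟨t, ht⟩ : ∃ t, S - 1 = 20 + t := ⟨S - 21, by omega⟩
          rw [ht, pow_add]
          have := Nat.lt_two_pow_self (n := t)
          simp only [copies]
          omega
        omega
      refine (Nat.mul_le_mul_right X hcnt).trans ?_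
      rw [hX, ← pow_add]
      apply Nat.pow_le_pow_right Nat.two_pos
      omega
    have h8 : 2 ^ (8193 * S) = 2 ^ (8193 * S - 1) + 2 ^ (8193 * S - 1) := by
      rw [← mul_two, ← pow_succ, Nat.sub_add_cancel (by omega)]
    rw [h8]
    exact Nat.add_le_add (hu x) (hu y)
  · intro B hB0 hBW hbad c
    obtain ⟨x, y, hxy, hrep⟩ := hcov _ _ K2 hK2 hd2 B hB0 hBW hbad c
    exact ⟨_, hrep, hxy⟩

end Vale.Agent.P012
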