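import Vale.Agent.P012.Final

/-!
# The upper bound `N(b) ≪ log log b`
-/

namespace Vale.Agent.P012

open Finset Filter

lemma eventually_poly_le (k C : ℕ) : ∀ᶠ n : ℕ in atTop, C * n ^ k ≤ 2 ^ n := by
  have h := tendsto_pow_const_div_const_pow_of_one_lt k (show (1 : ℝ) < 2 by norm_num)
  have hC : (0 : ℝ) < 1 / ((C : ℝ) + 1) := by positivity
  filter_upwards [h.eventually_le_const hC] with n hn
  rw [div_le_div_iff₀ (by positivity) (by positivity), one_mul] at hn
  have h2 : (C : ℝ) * (n : ℝ) ^ k ≤ (2 : ℝ) ^ n := by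
    have : (0 : ℝ) ≤ (n : ℝ) ^ k := by positivity
    linarith
  exact_mod_cast h2

/-- The absolute constant bounding `log M / S`. -/
def Lam : ℕ := 10 ^ 10

/-- Exponent bounding the growth of the potential in one step. -/
def stepExp (lam : ℕ) : ℕ := 6 + 3 * 2 ^ (4 * lam) + 4096000 * lam * 2 ^ (15 * lam)

lemma pS_le (lam : ℕ) (h : 1 ≤ lam) : pS lam ≤ 64 * lam * 2 ^ (16 * lam) :=
  Nat.mul_le_mul_right _ (pk_le lam h)

/-- All numerical facts for large `lam`. -/
structure Good (lam : ℕ) : Prop extends Large lam where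
  step : 64 * lam * stepExp lam ≤ pE lam
  small : 2 ^ (4 * lam) + 200 ≤ pE lam
  cube : 4 * Lam * pk lam * (4 * Lam * pk lam) * (4 * Lam * pk lam) < pS lam
  phase : pS lam * 3 ^ (64 * lam) ≤ 4 ^ (64 * lam)

lemma eventually_good : ∀ᶠ lam : ℕ in atTop, Good lam := by
  filter_upwards [eventually_ge_atTop 3, eventually_poly_le 3 (2 ^ 200), eventually_poly_le 1 64,
    eventually_poly_le 2 (2 ^ 30)] with lam h3 hc h64 hsq
  rw [pow_one] at h64
  have h1 : 1 ≤ lam := by omega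
  have hmono : ∀ {a b : ℕ}, a ≤ b → 2 ^ a ≤ 2 ^ b := fun h => Nat.pow_le_pow_right Nat.two_pos h
  have hS : pS lam ≤ 2 ^ (17 * lam) := by
    refine (pS_le lam h1).trans ((Nat.mul_le_mul_right _ h64).trans (le_of_eq ?_))
    rw [← pow_add]; ring_nf
  refine ⟨⟨h1, ?_, ?_, ?_⟩, ?_, ?_, ?_, ?_⟩
  · have h4 : 4 * pS lam + 1 ≤ 2 ^ (18 * lam) := by
      have := hmono (show 3 ≤ lam from h3)
      have h5 : 2 ^ (18 * lam) = 2 ^ lam * 2 ^ (17 * lam) := by rw [← pow_add]; ring_nf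
      have := Nat.one_le_two_pow (n := 17 * lam)
      have h6 : 8 * 2 ^ (17 * lam) ≤ 2 ^ lam * 2 ^ (17 * lam) :=
        Nat.mul_le_mul_right _ (by simpa using hmono h3)
      omega
    refine (Nat.pow_le_pow_left h4 _).trans ?_
    rw [← pow_mul]
    refine hmono ?_
    calc 18 * lam * 2 ^ (4 * lam) ≤ 2 ^ lam * 2 ^ (4 * lam) :=
          Nat.mul_le_mul_right _ (le_trans (by omega) h64)
      _ = 2 ^ (5 * lam) := by rw [← pow_add]; ring_nf
      _ ≤ pE lam := hmono (by omega)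
  · have h2 : 600000 * lam ≤ 2 ^ lam := by
      refine le_trans ?_ hsq
      exact Nat.mul_le_mul (by norm_num) (by rw [sq]; exact Nat.le_mul_of_pos_left lam (by omega))
    unfold pr
    have hE : pE lam = 2 ^ (16 * lam) := rfl
    have h17 : 2 ^ lam * 2 ^ (16 * lam) ≤ 2 ^ (32 * lam) := by
      rw [← pow_add]; exact hmono (by omega)
    refine le_trans ?_ h17
    have h5 : (600000 * lam) * 2 ^ (16 * lam) ≤ 2 ^ lam * 2 ^ (16 * lam) := Nat.mul_le_mul_right _ h2
    have hpos := Nat.one_le_two_pow (n := 16 * lam)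
    rw [hE]
    nlinarith
  · exact hmono (by omega)
  · have h6 : stepExp lam ≤ 4096010 * lam * 2 ^ (15 * lam) := by
      unfold stepExp
      have ha := hmono (show 4 * lam ≤ 15 * lam by omega)
      have hb := Nat.one_le_two_pow (n := 15 * lam)
      nlinarith
    refine (Nat.mul_le_mul_left _ h6).trans ?_
    calc 64 * lam * (4096010 * lam * 2 ^ (15 * lam)) = 64 * 4096010 * lam ^ 2 * 2 ^ (15 * lam) := by ring
      _ ≤ 2 ^ lam * 2 ^ (15 * lam) :=
          Nat.mul_le_mul_right _ (le_trans (Nat.mul_le_mul_right _ (by norm_num)) hsq)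
      _ = pE lam := by rw [← pow_add]; unfold pE; ring_nf
  · have : 2 ^ (4 * lam) * 2 ≤ pE lam := by rw [← pow_succ]; exact hmono (by omega)
    have h8 : 2 ^ 8 ≤ 2 ^ (4 * lam) := hmono (by omega)
    norm_num at h8
    omega
  · have hk := pk_le lam h1
    have hk1 := pk_pos lam
    calc 4 * Lam * pk lam * (4 * Lam * pk lam) * (4 * Lam * pk lam)
        ≤ 4 * Lam * (64 * lam) * (4 * Lam * (64 * lam)) * (4 * Lam * (64 * lam)) := by gcongr
      _ = (4 * Lam * 64) ^ 3 * lam ^ 3 := by ring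
      _ ≤ 2 ^ 200 * lam ^ 3 := Nat.mul_le_mul_right _ (by unfold Lam; norm_num)
      _ ≤ 2 ^ lam := hc
      _ < pE lam := Nat.pow_lt_pow_right one_lt_two (by omega)
      _ ≤ pS lam := pE_le_pS lam
  · refine (Nat.mul_le_mul_right _ hS).trans ?_
    rw [pow_mul, pow_mul, pow_mul 4, ← mul_pow]
    exact Nat.pow_le_pow_left (by norm_num) _

/-- A representation of `a / b` by `O(lam)` unit fractions. -/
theorem expansion {lam : ℕ} (hG : Good lam) {a b : ℕ} (ha : 1 ≤ a) (hab : a < b)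
    (hb : b ≤ 2 ^ (2 ^ (4 * lam))) :
    ∃ m : Multiset ℕ, m.card ≤ (11 + 64 + (4 * Lam + 1) + 4 * Lam * 64 + 2
        + (2 + (4 * Lam + 1) * (2 * Lam + 1)) * (2 * (80 * 32 + copies * 64))) * lam ∧
      (∀ n ∈ m, 1 ≤ n) ∧ rsum m = (a : ℚ) / b := by
  classical
  have hL := hG.toLarge
  have h1 := hL.one_le
  set E := pE lam with hEdef
  set S := pS lam with hSdef
  set k := pk lam with hkdef
  have hES : E ≤ S := pE_le_pS lam
  have hE40 : 2 ^ 40 ≤ E := hL.big
  have hS40 : 2 ^ 40 ≤ S := hE40.trans hES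
  obtain ⟨M, Bad, hMlo, hMhi, hBad, hβ, hcov1, hcov2⟩ := exists_system hL
  set T1 := 2 * (80 * pr lam + copies * k) with hT1
  set β := ∑ q ∈ Bad, (q : ℝ) ^ (-(1 / 16) : ℝ) with hβdef
  have hpos : ∀ q ∈ Bad, 1 ≤ q := fun q hq => le_trans Nat.one_le_two_pow (hBad q hq).1
  have hβ0 : 0 ≤ β := Finset.sum_nonneg fun q _ => by positivity
  have hM : 0 < M := lt_of_lt_of_le (by positivity) hMlo
  have h2E : (8 : ℝ) ≤ (2 : ℝ) ^ E := by
    calc (8 : ℝ) = 2 ^ 3 := by norm_num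
      _ ≤ _ := pow_le_pow_right₀ (by norm_num) (by omega)
  have hβsmall : β * (2 : ℝ) ^ (4 * E) ≤ 1 := (le_div_iff₀ (by positivity)).1 hβ
  have hβ3 : 3 * β < 1 := by
    have h8 : (8 : ℝ) ≤ (2 : ℝ) ^ (4 * E) :=
      h2E.trans (pow_le_pow_right₀ (by norm_num) (by omega))
    nlinarith
  have hβfin : 3 * (2 : ℝ) ^ E * β < 1 := by
    have h8 : 8 * (2 : ℝ) ^ E ≤ (2 : ℝ) ^ (4 * E) := by
      calc 8 * (2 : ℝ) ^ E ≤ (2 : ℝ) ^ E * 2 ^ E := by gcongr
        _ = (2 : ℝ) ^ (E + E) := (pow_add _ _ _).symm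
        _ ≤ _ := pow_le_pow_right₀ (by norm_num) (by omega)
    nlinarith [pow_pos (two_pos : (0:ℝ) < 2) E]
  -- growth factor
  set F : ℝ := (2 : ℝ) ^ stepExp lam with hFdef
  have hF : ∀ q ∈ Bad, 40 * ∑ d ∈ q.divisors, qw d ≤ F := by
    intro q hq
    have hq0 : q ≠ 0 := by have := hpos q hq; omega
    refine (mul_le_mul_of_nonneg_left (sum_qw_le hq0 (hBad q hq).2 h1) (by norm_num)).trans ?_
    set X := 2048000 * lam * 2 ^ (15 * lam) with hX
    have hx : Real.exp (2 * ((16000 * S : ℕ) : ℝ) / 2 ^ lam) ≤ (2 : ℝ) ^ (2 * X) := by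
      have hle : 2 * ((16000 * S : ℕ) : ℝ) / 2 ^ lam ≤ (X : ℝ) := by
        rw [div_le_iff₀ (by positivity)]
        have : 2 * (16000 * S) ≤ X * 2 ^ lam := by
          calc 2 * (16000 * S) ≤ 2 * (16000 * (64 * lam * 2 ^ (16 * lam))) :=
                Nat.mul_le_mul_left _ (Nat.mul_le_mul_left _ (pS_le lam h1))
            _ = _ := by
                rw [hX, show 16 * lam = 15 * lam + lam by ring, pow_add]; ring
        exact_mod_cast this
      have he : Real.exp 1 ≤ (2 : ℝ) ^ 2 := by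
        have := Real.exp_one_lt_d9
        norm_num
        linarith
      calc Real.exp _ ≤ Real.exp ((X : ℝ) * 1) := Real.exp_le_exp.2 (by rw [mul_one]; exact hle)
        _ = Real.exp 1 ^ X := Real.exp_nat_mul 1 X
        _ ≤ ((2 : ℝ) ^ 2) ^ X := pow_le_pow_left₀ (Real.exp_pos 1).le he X
        _ = _ := (pow_mul 2 2 X).symm
    have h8 : (8 : ℝ) ^ (2 ^ (4 * lam)) = (2 : ℝ) ^ (3 * 2 ^ (4 * lam)) := by
      rw [pow_mul (2 : ℝ) 3]; norm_num
    calc 40 * ((8 : ℝ) ^ 2 ^ (4 * lam) * Real.exp (2 * ((16000 * S : ℕ) : ℝ) / 2 ^ lam))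
        ≤ (2 : ℝ) ^ 6 * ((2 : ℝ) ^ (3 * 2 ^ (4 * lam)) * (2 : ℝ) ^ (2 * X)) := by
          rw [h8]
          gcongr
          norm_num
      _ = F := by
          rw [hFdef, ← pow_add, ← pow_add, stepExp, hX]
          ring_nf
  have hF1 : 1 ≤ F := one_le_pow₀ (by norm_num)
  have hFpow : F ^ (64 * lam) ≤ (2 : ℝ) ^ E := by
    rw [hFdef, ← pow_mul]
    exact pow_le_pow_right₀ (by norm_num) (by rw [mul_comm]; exact hG.step)
  -- preliminary steps
  obtain ⟨m0, a0, b0, hm0, hm0p, hm0s, ha0, hlt0, hb0⟩ :=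
    pre_phase 11 a b (by omega) hab (Nat.mul_lt_mul_of_pos_left hab (by positivity))
  have hb0E : b0 ≤ 2 ^ E := by
    refine hb0.trans ((Nat.mul_le_mul_right _ hb).trans ?_)
    rw [← pow_add]
    exact Nat.pow_le_pow_right Nat.two_pos (by have := hG.small; omega)
  have hexT : ∃ T, b0 ≤ 2 ^ (T + 1) * a0 := ⟨E, hb0E.trans (by
    rw [pow_succ]
    exact le_trans (Nat.le_mul_of_pos_right _ (by omega : 0 < 2)) (Nat.le_mul_of_pos_right _ ha0))⟩
  set T0 := Nat.find hexT with hT0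
  have hT0a : b0 ≤ 2 ^ (T0 + 1) * a0 := Nat.find_spec hexT
  have hT010 : 10 ≤ T0 := by
    by_contra hc
    have : 2 ^ (T0 + 1) * a0 ≤ 2 ^ 11 * a0 :=
      Nat.mul_le_mul_right _ (Nat.pow_le_pow_right Nat.two_pos (by omega))
    omega
  have hT0b : 2 ^ T0 * a0 < b0 := by
    have := Nat.find_min hexT (show T0 - 1 < T0 by omega)
    rw [show T0 - 1 + 1 = T0 by omega] at this
    omega
  have hT0E : T0 ≤ E := by
    refine Nat.find_min' hexT ?_
    rw [pow_succ]
    exact hb0E.trans (le_trans (Nat.le_mul_of_pos_right _ (by omega : 0 < 2)) (Nat.le_mul_of_pos_right _ ha0))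
  -- phase one
  have hph : S * 3 ^ (64 * lam) ≤ T0 * 4 ^ (64 * lam) :=
    le_trans hG.phase (Nat.le_mul_of_pos_left _ (by omega))
  obtain ⟨m1, a1, b1, T, hm1, hm1p, hm1s, hw1, hST, hT2, hb1, hp1⟩ :=
    phase_one Bad S F hF1 hF hpos (64 * lam) a0 b0 T0 ⟨hT0b, hT0a⟩ hT010 (by omega) hph
  have hb1U : b1 ≤ 2 ^ (8 * S) := by
    refine (Nat.le_mul_of_pos_right b1 (show 0 < 2 ^ (3 * T0) by positivity)).trans (hb1.trans ?_)
    refine (Nat.mul_le_mul_right _ hb0E).trans ?_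
    rw [← pow_add]
    exact Nat.pow_le_pow_right Nat.two_pos (by omega)
  have hb1bad : ∀ q ∈ Bad, ¬ q ∣ b1 := by
    intro q hq
    refine not_dvd_of_Pot_lt_one ?_ hq (hpos q hq)
    have h2 : Pot Bad b0 ≤ (2 : ℝ) ^ E * β :=
      Pot_le (by omega) E (hb0E.trans (Nat.pow_le_pow_right Nat.two_pos (by omega)))
    have h3 : Pot Bad b1 ≤ (2 : ℝ) ^ E * ((2 : ℝ) ^ E * β) :=
      hp1.trans (mul_le_mul hFpow h2 (Finset.sum_nonneg fun q _ => by positivity) (by positivity))
    have h4 : (2 : ℝ) ^ E * ((2 : ℝ) ^ E * β) ≤ 1 / 8 := by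
      have h5 : (2 : ℝ) ^ (4 * E) = (2 : ℝ) ^ E * 2 ^ E * ((2 : ℝ) ^ E * 2 ^ E) := by
        rw [← pow_add, ← pow_add]; ring_nf
      have h8 : 8 ≤ (2 : ℝ) ^ E * 2 ^ E := h2E.trans (le_mul_of_one_le_right (by positivity) (by linarith))
      have h9 : 0 ≤ (2 : ℝ) ^ E * 2 ^ E * β := by positivity
      rw [h5] at hβsmall
      rw [← mul_assoc]
      nlinarith
    linarith
  -- phase two
  obtain ⟨s, hs⟩ : ∃ s, S = 4 * s := by
    have hJ : 2 ≤ pJ lam := by
      by_contra hc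
      have hk := pr_le_pk lam
      have : pk lam ≤ 2 ^ 1 := Nat.pow_le_pow_right Nat.two_pos (by omega)
      have : pr lam = 32 * lam := rfl
      omega
    refine ⟨2 ^ (pJ lam - 2) * E, ?_⟩
    show 2 ^ pJ lam * E = _
    rw [← mul_assoc, show (4 : ℕ) = 2 ^ 2 from rfl, ← pow_add, Nat.add_sub_cancel' hJ]
  obtain ⟨Z, hZlo, hZhi, hZB⟩ := exists_avoid Bad (2 ^ S) (2 ^ S) (S + 1) Nat.one_le_two_pow
    (by rw [pow_succ]; omega) (by
      have h : (2 : ℝ) ^ (((S + 1 : ℕ) : ℝ) / 16) ≤ (2 : ℝ) ^ (S : ℝ) := by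
        apply Real.rpow_le_rpow_of_exponent_le (by norm_num)
        have : (1 : ℝ) ≤ S := by exact_mod_cast (show 1 ≤ S by omega)
        push_cast
        linarith
      rw [Real.rpow_natCast] at h
      push_cast at h ⊢
      linarith) hpos hβ3
  have hlogM : Lam * S ≤ Nat.log 2 M := Nat.le_log_of_pow_le one_lt_two hMlo
  have hlogM' : Nat.log 2 M ≤ 2 * Lam * S := by
    have h := (Nat.pow_log_le_self 2 hM.ne').trans hMhi
    exact (Nat.pow_le_pow_iff_right (le_refl 2)).1 h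
  set Tend := Nat.log 2 M - (8194 * S + 1) with hTend
  have hLam : Lam = 10 ^ 10 := rfl
  rw [hLam] at hlogM hlogM'
  obtain ⟨m2, a2, b2, Bs, hm2, hm2p, hm2s, hw2, hb2, hlen, hadm⟩ :=
    phase_two Bad s Z (2 * Lam) Tend (by omega)
      (by rw [← hs]; exact hZlo)
      (by rw [← hs, pow_succ]; omega) hZB hpos hβ3
      (by rw [← hs, hLam]; omega) (by rw [hLam]; omega) (4 * Lam + 1) a1 b1 T hw1
      (by omega) (by omega) (by
        have : (4 * Lam + 1) * (2 * s) = 2 * Lam * (4 * s) + 2 * s := by ring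
        rw [this, ← hs, hLam]
        omega)
  rw [← hs] at hadm
  -- mixed radix
  have ha2 := hw2.pos_left
  have hb2pos := hw2.pos_right
  have hb1pos := hw1.pos_right
  obtain ⟨r, hr, hrle, hrm⟩ := mixed_radix M T1 (2 ^ (8193 * S)) (b1 :: Bs)
    (by
      intro B hB
      rcases List.mem_cons.1 hB with rfl | hB
      exacts [hb1pos.ne', (hadm B hB).1])
    (by
      intro B hB
      rcases List.mem_cons.1 hB with rfl | hB
      exacts [hcov1 _ hb1pos.ne' hb1U hb1bad,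
        hcov1 B (hadm B hB).1 (hadm B hB).2.1 (hadm B hB).2.2]) (a2 * M)
  rw [List.prod_cons, ← hb2] at hr hrle hrm
  simp only [List.length_cons] at hr hrle
  have hrM : r ≤ a2 * M := by
    have hlenS : Bs.length + 1 ≤ 2 ^ (S - 2) := by
      refine le_trans (Nat.add_le_add_right hlen 1) (le_trans ?_ (Nat.pow_le_pow_right Nat.two_pos
        (show 100 ≤ S - 2 by omega)))
      rw [hLam]
      norm_num
    have hlog := Nat.pow_log_le_self 2 hM.ne'
    calc r ≤ b2 * ((Bs.length + 1) * 2 ^ (8193 * S)) := hrle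
      _ ≤ b2 * (2 ^ (S - 2) * 2 ^ (8193 * S)) :=
          Nat.mul_le_mul_left _ (Nat.mul_le_mul_right _ hlenS)
      _ ≤ 2 ^ (Tend + 1) * a2 * (2 ^ (S - 2) * 2 ^ (8193 * S)) := Nat.mul_le_mul_right _ hw2.2
      _ = a2 * (2 ^ (Tend + 1 + (S - 2 + 8193 * S))) := by rw [pow_add, pow_add]; ring
      _ ≤ a2 * 2 ^ (Nat.log 2 M) :=
          Nat.mul_le_mul_left _ (Nat.pow_le_pow_right Nat.two_pos (by omega))
      _ ≤ a2 * M := Nat.mul_le_mul_left _ hlog
  obtain ⟨q, hq⟩ : b2 ∣ a2 * M - r := (Nat.modEq_iff_dvd' hrM).1 hrm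
  have hqlt : q < 2 ^ (8194 * S + 2) := by
    have h2 : q * 2 ^ Tend < M := by
      by_contra hc
      push Not at hc
      have h3 : b2 * q ≤ a2 * M := by omega
      have h4 : b2 * M ≤ b2 * (q * 2 ^ Tend) := Nat.mul_le_mul_left _ hc
      have h5 : b2 * (q * 2 ^ Tend) ≤ 2 ^ Tend * a2 * M := by
        calc b2 * (q * 2 ^ Tend) = b2 * q * 2 ^ Tend := by ring
          _ ≤ a2 * M * 2 ^ Tend := Nat.mul_le_mul_right _ h3
          _ = _ := by ring
      have h6 := Nat.mul_lt_mul_of_pos_right hw2.1 hM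
      omega
    have h7 : M < 2 ^ (8194 * S + 2 + Tend) := by
      refine lt_of_lt_of_le (Nat.lt_pow_succ_log_self one_lt_two M)
        (Nat.pow_le_pow_right Nat.two_pos ?_)
      omega
    rw [pow_add] at h7
    exact Nat.lt_of_mul_lt_mul_right (h2.trans h7)
  -- final stage
  set N := 4 * Lam * k with hN
  obtain ⟨m4, hm4, hm4p, hm4s⟩ := final_stage (M := M) (E := E) (N := N) (U := 2 * Lam * S)
    (W := 16000 * S) (G := 1000 * S) (T := T1) Bad hM hMhi (by
      have hc : N * N * N < S := hG.cube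
      have e : E * N = 4 * Lam * S := by rw [hN, hSdef]; unfold pS; rw [← hkdef, ← hEdef]; ring
      rw [e, ← mul_assoc, hLam]
      omega) hpos (fun x hx => (hBad x hx).2) (by omega) (by omega) hβfin hcov2 (q := q) (by
      calc q * (2 ^ (1000 * S) + 1) ≤ 2 ^ (8194 * S + 2) * 2 ^ (1000 * S + 1) := by
            refine Nat.mul_le_mul hqlt.le ?_
            rw [pow_succ]
            have := Nat.one_le_two_pow (n := 1000 * S)
            omega
        _ ≤ _ := by rw [← pow_add]; exact Nat.pow_le_pow_right Nat.two_pos (by omega))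
  obtain ⟨m3, hm3, hm3p, hm3s⟩ := rep_to_fracs (Nat.mul_pos hb2pos hM) hr
  refine ⟨m0 + m1 + m2 + m3 + m4, ?_, ?_, ?_⟩
  · simp only [Multiset.card_add]
    have hk64 : k ≤ 64 * lam := pk_le lam h1
    have hT1le : T1 ≤ 2 * (80 * 32 + copies * 64) * lam := by
      rw [hT1, show pr lam = 32 * lam from rfl]
      calc 2 * (80 * (32 * lam) + copies * k) ≤ 2 * (80 * (32 * lam) + copies * (64 * lam)) := by gcongr
        _ = _ := by ring
    have hlen' : (Bs.length + 1) * T1 + T1 ≤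
        (2 + (4 * Lam + 1) * (2 * Lam + 1)) * (2 * (80 * 32 + copies * 64)) * lam := by
      calc (Bs.length + 1) * T1 + T1 = (Bs.length + 2) * T1 := by ring
        _ ≤ (2 + (4 * Lam + 1) * (2 * Lam + 1)) * (2 * (80 * 32 + copies * 64) * lam) :=
            Nat.mul_le_mul (by omega) hT1le
        _ = _ := by ring
    have hN' : N ≤ 4 * Lam * 64 * lam := by
      rw [hN, mul_assoc (4 * Lam) 64]; exact Nat.mul_le_mul_left _ hk64
    have hadd : ∀ A B C D E' G' : ℕ,
        (A + B + C + D + E' + G') * lam = A * lam + B * lam + C * lam + D * lam + E' * lam + G' * lam := by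
      intros; ring
    rw [hadd]
    have hc1 : 4 * Lam + 1 ≤ (4 * Lam + 1) * lam := Nat.le_mul_of_pos_right _ h1
    omega
  · intro n hn
    simp only [Multiset.mem_add] at hn
    rcases hn with (((h | h) | h) | h) | h
    exacts [hm0p n h, hm1p n h, hm2p n h, hm3p n h, hm4p n h]
  · simp only [rsum_add, hm3s, hm4s]
    rw [← hm0s, ← hm1s, ← hm2s]
    have hb2Q : (b2 : ℚ) ≠ 0 := by positivity
    have hMQ : (M : ℚ) ≠ 0 := by positivity
    have e : (a2 : ℚ) * M = (b2 : ℚ) * q + r := by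
      have : a2 * M = b2 * q + r := by omega
      exact_mod_cast this
    push_cast
    field_simp
    linear_combination -e

/-- The upper bound, with distinct denominators. -/
theorem upper_bound : ∃ C : ℝ, ∃ b₀ : ℕ, ∀ b : ℕ, b₀ ≤ b → ∀ a : ℕ, 1 ≤ a → a < b →
    ∃ s : Finset ℕ, (∀ n ∈ s, 2 ≤ n) ∧ (∑ n ∈ s, (1 : ℚ) / n) = (a : ℚ) / b ∧
      (s.card : ℝ) ≤ C * Real.log (Real.log b) := by
  obtain ⟨lam0, hlam0⟩ := eventually_atTop.1 eventually_good
  set K := 11 + 64 + (4 * Lam + 1) + 4 * Lam * 64 + 2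
    + (2 + (4 * Lam + 1) * (2 * Lam + 1)) * (2 * (80 * 32 + copies * 64)) with hK
  refine ⟨(K : ℝ) * 4, max 16 (2 ^ (2 ^ (4 * lam0))), fun b hb a ha hab => ?_⟩
  have hb16 : 16 ≤ b := le_trans (le_max_left _ _) hb
  set L1 := Nat.log 2 (Nat.log 2 b) with hL1
  set lam := L1 / 4 + 1 with hlam
  have hbig : 4 * lam0 ≤ L1 := by
    apply Nat.le_log_of_pow_le one_lt_two
    exact Nat.le_log_of_pow_le one_lt_two (le_trans (le_max_right _ _) hb)
  have hgood : Good lam := hlam0 lam (by omega)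
  have hbU : b ≤ 2 ^ (2 ^ (4 * lam)) := by
    refine (Nat.lt_pow_succ_log_self one_lt_two b).le.trans (Nat.pow_le_pow_right Nat.two_pos ?_)
    have h1 := Nat.lt_pow_succ_log_self one_lt_two (Nat.log 2 b)
    have h2 : 2 ^ (L1 + 1) ≤ 2 ^ (4 * lam) := Nat.pow_le_pow_right Nat.two_pos (by omega)
    rw [← hL1] at h1
    simp only [Nat.succ_eq_add_one] at h1 ⊢
    omega
  obtain ⟨m, hmc, hmp, hms⟩ := expansion hgood ha hab hbU
  have hlt : rsum m < 1 := by
    rw [hms, div_lt_one (by exact_mod_cast (show 0 < b by omega))]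
    exact_mod_cast hab
  obtain ⟨s, hsc, hs2, hss⟩ := exists_distinct m hmc hmp hlt
  refine ⟨s, hs2, hss.trans hms, ?_⟩
  -- `lam ≤ 4 log log b`
  have hlogb : (L1 : ℝ) * Real.log 2 ≤ Real.log 2 + Real.log (Real.log b) := by
    have h3 : 2 ^ L1 ≤ Nat.log 2 b := by
      apply Nat.pow_log_le_self 2
      have : 1 ≤ Nat.log 2 b := Nat.le_log_of_pow_le one_lt_two (by omega)
      omega
    have h4 : 2 ^ Nat.log 2 b ≤ b := Nat.pow_log_le_self 2 (by omega)
    have h4R : (Nat.log 2 b : ℝ) * Real.log 2 ≤ Real.log b := by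
      rw [← Real.log_pow]
      exact Real.log_le_log (by positivity) (by exact_mod_cast h4)
    have h3R : ((2 : ℝ) ^ L1) ≤ (Nat.log 2 b : ℝ) := by exact_mod_cast h3
    have hl2 : (1 / 2 : ℝ) < Real.log 2 := by
      have := Real.log_two_gt_d9
      linarith
    have h5 : (2 : ℝ) ^ L1 ≤ 2 * Real.log b := by
      have hp : (0 : ℝ) < (2 : ℝ) ^ L1 := by positivity
      nlinarith
    have h6 := Real.log_le_log (by positivity) h5
    have hlb : 0 < Real.log b := Real.log_pos (by exact_mod_cast (show 1 < b by omega))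
    rwa [Real.log_pow, Real.log_mul (by norm_num) hlb.ne'] at h6
  have hll : 1 ≤ Real.log (Real.log b) := by
    have h7 : Real.exp (Real.exp 1) ≤ b := by
      have he : Real.exp 1 ≤ 2.7182818286 := Real.exp_one_lt_d9.le
      calc Real.exp (Real.exp 1) ≤ Real.exp (4 * Real.log 2) := by
            apply Real.exp_le_exp.2
            have := Real.log_two_gt_d9
            linarith
        _ = 16 := by
            rw [show (4 : ℝ) * Real.log 2 = ((4 : ℕ) : ℝ) * Real.log 2 by norm_num,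
              ← Real.log_pow, Real.exp_log (by norm_num)]
            norm_num
        _ ≤ b := by exact_mod_cast hb16
    have h8 : Real.exp 1 ≤ Real.log b := by
      rw [← Real.log_exp (Real.exp 1)]
      exact Real.log_le_log (Real.exp_pos _) h7
    rw [← Real.log_exp 1]
    exact Real.log_le_log (Real.exp_pos _) h8
  have hl2 : (1 / 2 : ℝ) < Real.log 2 := by
    have := Real.log_two_gt_d9
    linarith
  have hl2' : Real.log 2 < 1 := by
    have := Real.log_two_lt_d9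
    linarith
  have hlam4 : ((L1 / 4 : ℕ) : ℝ) ≤ (L1 : ℝ) / 4 := Nat.cast_div_le
  have hlamR : (lam : ℝ) ≤ 4 * Real.log (Real.log b) := by
    rw [hlam]
    push_cast
    have : (0 : ℝ) ≤ (L1 : ℝ) := Nat.cast_nonneg _
    nlinarith
  calc (s.card : ℝ) ≤ ((K * lam : ℕ) : ℝ) := by exact_mod_cast hsc
    _ = (K : ℝ) * lam := by push_cast; ring
    _ ≤ (K : ℝ) * (4 * Real.log (Real.log b)) := mul_le_mul_of_nonneg_left hlamR (Nat.cast_nonneg _)
    _ = _ := by ring

end Vale.Agent.P012
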